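import Crest.Agent.H1Gap.Prob

set_option autoImplicit false

namespace Crest.Agent.H1Gap

open Finset

/-- indicator of a residue class. -/
noncomputable def ind (d a : ℕ) : ℕ → ℝ := fun m => if m ≡ a [MOD d] then 1 else 0

/-- `g` has "progression norm" at most `N` (dual formulation). -/
def AP (Q : ℕ) (N : ℝ) (g : ℕ → ℝ) : Prop :=
  ∀ (Λ : (ℕ → ℝ) →ₗ[ℝ] ℝ) (c : ℝ), (∀ d a, d ∣ Q → |Λ (ind d a)| ≤ c) → |Λ g| ≤ N * c

variable {Q : ℕ}

lemma test_nonneg {Λ : (ℕ → ℝ) →ₗ[ℝ] ℝ} {c : ℝ} (h : ∀ d a, d ∣ Q → |Λ (ind d a)| ≤ c) : 0 ≤ c :=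
  (abs_nonneg _).trans (h 1 0 (one_dvd _))

lemma AP.mono {N N' : ℝ} {g : ℕ → ℝ} (h : AP Q N g) (hN : N ≤ N') : AP Q N' g :=
  fun Λ c hΛ => (h Λ c hΛ).trans (mul_le_mul_of_nonneg_right hN (test_nonneg hΛ))

lemma AP.congr {N : ℝ} {g g' : ℕ → ℝ} (h : AP Q N g) (hg : ∀ m, g' m = g m) : AP Q N g' := by
  rw [show g' = g from funext hg]; exact h

lemma AP.ind {d : ℕ} (a : ℕ) (hd : d ∣ Q) : AP Q 1 (ind d a) :=
  fun Λ c hΛ => by simpa using hΛ d a hd

lemma AP.add {N N' : ℝ} {g g' : ℕ → ℝ} (h : AP Q N g) (h' : AP Q N' g') :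
    AP Q (N + N') (fun m => g m + g' m) := by
  intro Λ c hΛ
  have : (fun m => g m + g' m) = g + g' := rfl
  rw [this, map_add, add_mul]
  exact (abs_add_le _ _).trans (add_le_add (h Λ c hΛ) (h' Λ c hΛ))

lemma AP.smul {N : ℝ} {g : ℕ → ℝ} (h : AP Q N g) (a : ℝ) :
    AP Q (|a| * N) (fun m => a * g m) := by
  intro Λ c hΛ
  have : (fun m => a * g m) = a • g := rfl
  rw [this, map_smul, smul_eq_mul, abs_mul, mul_assoc]
  exact mul_le_mul_of_nonneg_left (h Λ c hΛ) (abs_nonneg _)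

lemma AP.sub {N N' : ℝ} {g g' : ℕ → ℝ} (h : AP Q N g) (h' : AP Q N' g') :
    AP Q (N + N') (fun m => g m - g' m) := by
  have := h.add (h'.smul (-1))
  simp only [abs_neg, abs_one, one_mul] at this
  exact this.congr fun m => by ring

lemma AP.one : AP Q 1 (fun _ => 1) :=
  (AP.ind (d := 1) 0 (one_dvd _)).congr fun m => by simp [H1Gap.ind, Nat.modEq_one]

lemma AP.const (a : ℝ) : AP Q |a| (fun _ => a) := by
  simpa using (AP.one (Q := Q)).smul a

lemma AP.zero : AP Q 0 (fun _ => 0) := by simpa using AP.const (Q := Q) 0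

lemma AP.sum {κ : Type*} (s : Finset κ) (N : κ → ℝ) (g : κ → ℕ → ℝ) (h : ∀ k ∈ s, AP Q (N k) (g k)) :
    AP Q (∑ k ∈ s, N k) (fun m => ∑ k ∈ s, g k m) := by
  classical
  induction s using Finset.induction_on with
  | empty => simpa using AP.zero
  | insert a s ha ih =>
    simp only [Finset.sum_insert ha]
    exact (h a (by simp)).add (ih fun k hk => h k (by simp [hk]))

lemma ind_mul (d a d' a' : ℕ) : ind d a * ind d' a' = 0 ∨
    ∃ b, ind d a * ind d' a' = ind (Nat.lcm d d') b := by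
  by_cases h : ∃ b, b ≡ a [MOD d] ∧ b ≡ a' [MOD d']
  · obtain ⟨b, h1, h2⟩ := h
    refine Or.inr ⟨b, funext fun m => ?_⟩
    simp only [Pi.mul_apply, ind]
    by_cases hm : m ≡ b [MOD Nat.lcm d d']
    · rw [if_pos hm, if_pos ((hm.of_dvd (Nat.dvd_lcm_left _ _)).trans h1),
        if_pos ((hm.of_dvd (Nat.dvd_lcm_right _ _)).trans h2), mul_one]
    · rw [if_neg hm]
      by_cases h3 : m ≡ a [MOD d]
      · have h4 : ¬ m ≡ a' [MOD d'] := fun h4 =>
          hm (Nat.mod_lcm (h3.trans h1.symm) (h4.trans h2.symm))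
        simp [h4]
      · simp [h3]
  · refine Or.inl (funext fun m => ?_)
    simp only [Pi.mul_apply, ind, Pi.zero_apply]
    by_cases h3 : m ≡ a [MOD d]
    · have h4 : ¬ m ≡ a' [MOD d'] := fun h4 => h ⟨m, h3, h4⟩
      simp [h4]
    · simp [h3]

lemma AP.mul {N N' : ℝ} {g g' : ℕ → ℝ} (h : AP Q N g) (h' : AP Q N' g') :
    AP Q (N * N') (fun m => g m * g' m) := by
  intro Λ c hΛ
  have hc := test_nonneg hΛ
  have h1 : ∀ d a, d ∣ Q → |(Λ.comp (LinearMap.mulRight ℝ g')) (H1Gap.ind d a)| ≤ N' * c := by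
    intro d a hd
    refine h' (Λ.comp (LinearMap.mulLeft ℝ (H1Gap.ind d a))) c ?_
    intro d' a' hd'
    simp only [LinearMap.comp_apply, LinearMap.mulLeft_apply]
    rcases ind_mul d a d' a' with h0 | ⟨b, hb⟩
    · rw [h0]; simpa using hc
    · rw [hb]; exact hΛ _ _ (Nat.lcm_dvd hd hd')
  have := h _ _ h1
  rw [mul_assoc]
  exact this

lemma AP.prod {κ : Type*} (s : Finset κ) (N : κ → ℝ) (g : κ → ℕ → ℝ)
    (h : ∀ k ∈ s, AP Q (N k) (g k)) :
    AP Q (∏ k ∈ s, N k) (fun m => ∏ k ∈ s, g k m) := by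
  classical
  induction s using Finset.induction_on with
  | empty => simpa using AP.one
  | insert a s ha ih =>
    simp only [Finset.prod_insert ha]
    exact (h a (by simp)).mul (ih fun k hk => h k (by simp [hk]))

lemma AP.dvd {p : ℕ} (hp : p ∣ Q) (hp0 : 0 < p) (c : ℕ) :
    AP Q 1 (fun m => if p ∣ m + c then 1 else 0) := by
  refine (AP.ind ((p - 1) * c) hp).congr fun m => ?_
  unfold H1Gap.ind
  congr 1
  apply propext
  rw [← Nat.modEq_zero_iff_dvd]
  have h1 : (p - 1) * c + c ≡ 0 [MOD p] := by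
    rw [Nat.modEq_zero_iff_dvd]
    obtain ⟨q, rfl⟩ : ∃ q, p = q + 1 := ⟨p - 1, by omega⟩
    exact ⟨c, by simp; ring⟩
  constructor
  · intro h
    exact Nat.ModEq.add_right_cancel' c (h.trans h1.symm)
  · intro h
    exact (h.add_right c).trans h1

lemma AP.periodic {d : ℕ} (hd : d ∣ Q) (hd0 : 0 < d) {g : ℕ → ℝ} {B : ℝ}
    (hper : ∀ m, g m = g (m % d)) (hB : ∀ m, |g m| ≤ B) : AP Q (d * B) g := by
  have := AP.sum (Q := Q) (Finset.range d) (fun _ => B) (fun a m => g a * H1Gap.ind d a m)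
    (fun a _ => ((AP.ind a hd).smul (g a)).mono (by simpa using hB a))
  simp only [Finset.sum_const, Finset.card_range, nsmul_eq_mul] at this
  refine this.congr fun m => ?_
  rw [Finset.sum_eq_single (m % d)]
  · simp [H1Gap.ind, Nat.ModEq, ← hper m]
  · intro b hb hne
    have : ¬ m ≡ b [MOD d] := by
      intro h
      apply hne
      rw [Nat.ModEq, Nat.mod_eq_of_lt (Finset.mem_range.1 hb)] at h
      exact h.symm
    simp [H1Gap.ind, this]
  · intro h
    exact absurd (Finset.mem_range.2 (Nat.mod_lt _ hd0)) h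

lemma sum_ind_period (d a b : ℕ) (hd : 0 < d) : ∑ m ∈ Finset.range d, ind d a (b + m) = 1 := by
  induction b with
  | zero =>
    rw [Finset.sum_eq_single (a % d)]
    · simp [ind, Nat.ModEq]
    · intro m hm hne
      have : ¬ m ≡ a [MOD d] := by
        intro h
        apply hne
        rw [Nat.ModEq, Nat.mod_eq_of_lt (Finset.mem_range.1 hm)] at h
        exact h
      simp [ind, this]
    · intro h
      exact absurd (Finset.mem_range.2 (Nat.mod_lt _ hd)) h
  | succ b ih =>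
    have h1 := Finset.sum_range_succ (fun m => ind d a (b + m)) d
    have h2 := Finset.sum_range_succ' (fun m => ind d a (b + m)) d
    have h3 : ind d a (b + d) = ind d a (b + 0) := by
      simp [ind, Nat.ModEq]
    have h4 : ∑ m ∈ Finset.range d, ind d a (b + 1 + m) =
        ∑ m ∈ Finset.range d, ind d a (b + (m + 1)) :=
      Finset.sum_congr rfl fun m _ => by congr 1; ring
    rw [h4]
    linarith

lemma sum_ind_mul (d a b k : ℕ) (hd : 0 < d) :
    ∑ m ∈ Finset.range (d * k), ind d a (b + m) = k := by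
  induction k with
  | zero => simp
  | succ k ih =>
    rw [mul_add, mul_one, Finset.sum_range_add, ih]
    have := sum_ind_period d a (b + d * k) hd
    simp only [add_assoc] at this
    rw [this]
    push_cast
    ring

lemma sum_ind_approx (d a b Y : ℕ) (hd : 0 < d) :
    |∑ m ∈ Finset.range Y, ind d a (b + m) - (Y : ℝ) / d| ≤ 1 := by
  have hnn : ∀ m, 0 ≤ ind d a m := fun m => by unfold ind; split_ifs <;> norm_num
  have h1 : ((Y / d : ℕ) : ℝ) ≤ ∑ m ∈ Finset.range Y, ind d a (b + m) := by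
    rw [← sum_ind_mul d a b (Y / d) hd]
    exact Finset.sum_le_sum_of_subset_of_nonneg
      (Finset.range_subset_range.2 (Nat.mul_div_le _ _)) fun m _ _ => hnn _
  have h2 : ∑ m ∈ Finset.range Y, ind d a (b + m) ≤ ((Y / d + 1 : ℕ) : ℝ) := by
    rw [← sum_ind_mul d a b (Y / d + 1) hd]
    exact Finset.sum_le_sum_of_subset_of_nonneg
      (Finset.range_subset_range.2 (Nat.lt_mul_div_succ Y hd).le) fun m _ _ => hnn _
  have h3 : ((Y / d : ℕ) : ℝ) ≤ (Y : ℝ) / d := Nat.cast_div_le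
  have h4 : (Y : ℝ) / d ≤ ((Y / d + 1 : ℕ) : ℝ) := by
    rw [div_le_iff₀ (by exact_mod_cast hd), mul_comm]
    exact_mod_cast (Nat.lt_mul_div_succ Y hd).le
  push_cast at h2 h4
  rw [abs_le]
  constructor <;> linarith

/-- transfer from an interval to a full period. -/
lemma AP.transfer {N : ℝ} {g : ℕ → ℝ} (h : AP Q N g) (hQ : 0 < Q) (b Y : ℕ) :
    ∑ m ∈ Finset.range Y, g (b + m) ≤ Y * ((∑ m ∈ Finset.range Q, g m) / Q) + N := by
  let Λ : (ℕ → ℝ) →ₗ[ℝ] ℝ :=
    { toFun := fun g => ∑ m ∈ Finset.range Y, g (b + m) - Y * ((∑ m ∈ Finset.range Q, g m) / Q)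
      map_add' := fun g g' => by
        simp only [Pi.add_apply, Finset.sum_add_distrib]; ring
      map_smul' := fun c g => by
        simp only [Pi.smul_apply, smul_eq_mul, RingHom.id_apply, ← Finset.mul_sum]; ring }
  have := h Λ 1 (by
    intro d a hd
    obtain ⟨k, rfl⟩ := hd
    have hd0 : 0 < d := Nat.pos_of_mul_pos_right hQ
    have hk0 : 0 < k := Nat.pos_of_mul_pos_left hQ
    have e := sum_ind_mul d a 0 k hd0
    simp only [zero_add] at e
    simp only [Λ, LinearMap.coe_mk, AddHom.coe_mk, e]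
    have : (Y : ℝ) * ((k : ℝ) / ((d * k : ℕ) : ℝ)) = Y / d := by
      have : (0 : ℝ) < d := by exact_mod_cast hd0
      have : (0 : ℝ) < k := by exact_mod_cast hk0
      push_cast
      field_simp
    rw [this]
    exact sum_ind_approx d a b Y hd0)
  simp only [Λ, LinearMap.coe_mk, AddHom.coe_mk, mul_one] at this
  linarith [(abs_le.1 this).2]

/-- CRT for two moduli. -/
lemma sum_crt (q r : ℕ) (hq : 0 < q) (hr : 0 < r) (hc : Nat.Coprime q r) (f g : ℕ → ℝ)
    (hf : ∀ m, f m = f (m % q)) (hg : ∀ m, g m = g (m % r)) :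
    ∑ m ∈ Finset.range (q * r), f m * g m =
      (∑ m ∈ Finset.range q, f m) * ∑ m ∈ Finset.range r, g m := by
  rw [Finset.sum_mul_sum, ← Finset.sum_product']
  refine Finset.sum_bij (fun m _ => (m % q, m % r)) ?_ ?_ ?_ ?_
  · intro m _
    simp [Nat.mod_lt _ hq, Nat.mod_lt _ hr]
  · intro m hm m' hm' h
    simp only [Prod.mk.injEq] at h
    have : m ≡ m' [MOD q * r] := (Nat.modEq_and_modEq_iff_modEq_mul hc).1 ⟨h.1, h.2⟩
    exact Nat.ModEq.eq_of_lt_of_lt this (Finset.mem_range.1 hm) (Finset.mem_range.1 hm')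
  · rintro ⟨a, b⟩ hab
    simp only [Finset.mem_product, Finset.mem_range] at hab
    refine ⟨Nat.chineseRemainder hc a b,
      Finset.mem_range.2 (Nat.chineseRemainder_lt_mul hc a b hq.ne' hr.ne'), ?_⟩
    have h1 := (Nat.chineseRemainder hc a b).2.1
    have h2 := (Nat.chineseRemainder hc a b).2.2
    rw [Nat.ModEq, Nat.mod_eq_of_lt hab.1] at h1
    rw [Nat.ModEq, Nat.mod_eq_of_lt hab.2] at h2
    simp [h1, h2]
  · intro m _
    rw [hf m, hg m]

lemma sum_crt_prod {κ : Type*} (s : Finset κ) (q : κ → ℕ) (hq : ∀ k, 0 < q k)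
    (hc : ∀ k k', k ≠ k' → Nat.Coprime (q k) (q k')) (g : κ → ℕ → ℝ)
    (hg : ∀ k m, g k m = g k (m % q k)) :
    ∑ m ∈ Finset.range (∏ k ∈ s, q k), ∏ k ∈ s, g k m =
      ∏ k ∈ s, ∑ m ∈ Finset.range (q k), g k m := by
  classical
  induction s using Finset.induction_on with
  | empty => simp
  | insert a s ha ih =>
    simp only [Finset.prod_insert ha]
    rw [sum_crt _ _ (hq a) (Finset.prod_pos fun k _ => hq k)
      (Nat.Coprime.prod_right fun k hk => hc a k (fun h => ha (h ▸ hk))) _ _ (hg a), ih]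
    intro m
    refine Finset.prod_congr rfl fun k hk => ?_
    rw [hg k (m % _), Nat.mod_mod_of_dvd _ (Finset.dvd_prod_of_mem _ hk), ← hg k m]

/-- the average over a full period is an expectation in a product model. -/
lemma avg_model {ι α : Type*} [Fintype ι] [DecidableEq ι] [Fintype α] [DecidableEq α]
    (Qs : ℕ) (hQs : 0 < Qs) (q : ι → ℕ) (hq : ∀ k, 0 < q k)
    (hc : ∀ k k', k ≠ k' → Nat.Coprime (q k) (q k')) (hcs : ∀ k, Nat.Coprime Qs (q k))
    (ξ : ι → ℕ → α) (hξ : ∀ k m, ξ k m = ξ k (m % q k))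
    (Ψ : ℕ → (ι → α) → ℝ) (hΨ : ∀ m Y, Ψ m Y = Ψ (m % Qs) Y) :
    (∑ m ∈ Finset.range (Qs * ∏ k, q k), Ψ m (fun k => ξ k m)) / ((Qs * ∏ k, q k : ℕ) : ℝ) =
      (∑ a ∈ Finset.range Qs, Ex (fun k y => (#{m ∈ Finset.range (q k) | ξ k m = y} : ℝ) / q k)
        (Ψ a)) / Qs := by
  have h1 : ∀ m, Ψ m (fun k => ξ k m) =
      ∑ Y : ι → α, Ψ m Y * ∏ k, if ξ k m = Y k then (1 : ℝ) else 0 := by
    intro m
    simp only [Finset.prod_boole]
    rw [Finset.sum_eq_single (fun k => ξ k m)]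
    · simp
    · intro Y _ hY
      rw [if_neg, mul_zero]
      intro h
      exact hY (funext fun k => (h k (Finset.mem_univ _)).symm)
    · simp
  simp only [h1]
  rw [Finset.sum_comm]
  have h2 : ∀ Y : ι → α, ∑ m ∈ Finset.range (Qs * ∏ k, q k),
      Ψ m Y * ∏ k, (if ξ k m = Y k then (1 : ℝ) else 0) =
      (∑ a ∈ Finset.range Qs, Ψ a Y) *
        ∏ k, (#{m ∈ Finset.range (q k) | ξ k m = Y k} : ℝ) := by
    intro Y
    rw [sum_crt _ _ hQs (Finset.prod_pos fun k _ => hq k)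
      (Nat.Coprime.prod_right fun k _ => hcs k) _ _ (fun m => hΨ m Y),
      sum_crt_prod Finset.univ q hq hc (fun k m => if ξ k m = Y k then (1 : ℝ) else 0)
        (fun k m => by rw [← hξ k m])]
    · simp only [Finset.sum_boole]
    · intro m
      refine Finset.prod_congr rfl fun k hk => ?_
      rw [hξ k (m % _), Nat.mod_mod_of_dvd _ (Finset.dvd_prod_of_mem _ hk), ← hξ k m]
  simp only [h2]
  unfold Ex
  rw [Finset.sum_comm, Finset.sum_div, Finset.sum_div]
  refine Finset.sum_congr rfl fun Y _ => ?_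
  rw [← Finset.mul_sum, Finset.prod_div_distrib]
  rw [Nat.cast_mul, Nat.cast_prod, div_mul_eq_mul_div, div_div, mul_comm (∏ k, (q k : ℝ)),
    mul_comm (∑ a ∈ Finset.range Qs, Ψ a Y)]

end Crest.Agent.H1Gap
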