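import Crest.Agent.H1Gap.Local

set_option autoImplicit false

namespace Crest.Agent.H1Gap

open Finset

/-- divisibility pattern of `n`. -/
def xi (a b n : ℕ) : Loc a b := fun p => decide ((p : ℕ) ∣ n)

def QQ (a b : ℕ) : ℕ := ∏ p : Pr a b, (p : ℕ)

variable {a b : ℕ}

lemma Pr_pos (p : Pr a b) : 0 < (p : ℕ) := (mem_PI.1 p.2).2.2.pos

lemma Pr_coprime (p q : Pr a b) (h : p ≠ q) : Nat.Coprime p q :=
  (Nat.coprime_primes (mem_PI.1 p.2).2.2 (mem_PI.1 q.2).2.2).2 fun e => h (Subtype.ext e)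

lemma QQ_pos (a b : ℕ) : 0 < QQ a b := Finset.prod_pos fun p _ => Pr_pos p

lemma dvd_QQ (p : Pr a b) : (p : ℕ) ∣ QQ a b := Finset.dvd_prod_of_mem _ (Finset.mem_univ p)

lemma QQ_le (a b : ℕ) : QQ a b ≤ 4 ^ zz b := by
  refine le_trans ?_ (primorial_le_four_pow (zz b))
  unfold QQ primorial
  rw [Finset.prod_coe_sort (PI (zz a) (zz b)) (fun p => p)]
  refine Finset.prod_le_prod_of_subset_of_one_le' ?_ fun p hp _ => (Finset.mem_filter.1 hp).2.one_le
  intro p hp
  rw [mem_PI] at hp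
  simp only [Finset.mem_filter, Finset.mem_range]
  exact ⟨by omega, hp.2.2⟩

lemma xi_mod (n c : ℕ) : xi a b (n + c) = xi a b (n % QQ a b + c) := by
  funext p
  unfold xi
  congr 1
  apply propext
  have : n + c ≡ n % QQ a b + c [MOD p] :=
    (((Nat.mod_modEq n (QQ a b)).of_dvd (dvd_QQ p)).add_right c).symm
  rw [← Nat.modEq_zero_iff_dvd, ← Nat.modEq_zero_iff_dvd]
  exact ⟨fun h => this.symm.trans h, fun h => this.trans h⟩

lemma xi_prime {n : ℕ} (hn : n.Prime) (hb : zz b < n) : xi a b n = fun _ => false := by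
  funext p
  have h := mem_PI.1 p.2
  simp only [xi, decide_eq_false_iff_not]
  intro hd
  have := (Nat.prime_dvd_prime_iff_eq h.2.2 hn).1 hd
  omega

lemma avg_loc (F : Loc a b → ℝ) :
    (∑ m ∈ Finset.range (QQ a b), F (xi a b m)) / (QQ a b : ℝ) = Ex (wt a b) F := by
  have := avg_model 1 one_pos (fun p : Pr a b => (p : ℕ)) Pr_pos Pr_coprime
    (fun p => Nat.coprime_one_left _) (fun p m => decide ((p : ℕ) ∣ m))
    (fun p m => by simp [Nat.dvd_mod_iff]) (fun _ Y => F Y) (fun _ _ => rfl)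
  simp only [one_mul, Finset.range_one, Finset.sum_singleton, Nat.cast_one, div_one] at this
  refine this.trans ?_
  congr 1
  funext p y
  have hp := Pr_pos p
  have hp' : (0 : ℝ) < (p : ℕ) := by exact_mod_cast hp
  have h1 : (Finset.range p).filter (fun m => decide ((p : ℕ) ∣ m) = true) = {0} := by
    ext m
    simp only [Finset.mem_filter, Finset.mem_range, decide_eq_true_eq, Finset.mem_singleton]
    exact ⟨fun h => Nat.eq_zero_of_dvd_of_lt h.2 h.1, fun h => by subst h; exact ⟨hp, dvd_zero _⟩⟩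
  cases y
  · have h2 := Finset.card_filter_add_card_filter_not (s := Finset.range p)
      (fun m => decide ((p : ℕ) ∣ m) = true)
    rw [h1, Finset.card_singleton, Finset.card_range] at h2
    simp only [Bool.not_eq_true] at h2
    have h3 : ((#{m ∈ Finset.range p | decide ((p : ℕ) ∣ m) = false} : ℕ) : ℝ) = (p : ℕ) - 1 := by
      rw [eq_sub_iff_add_eq, add_comm]; exact_mod_cast h2
    rw [h3]
    simp only [wt, Bool.false_eq_true, if_false]
    field_simp
  · rw [h1]; simp [wt]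

section norms
variable {Q : ℕ} (hQ : ∀ p : Pr a b, (p : ℕ) ∣ Q)
include hQ

lemma AP_om (t c : ℕ) : AP Q ((zz (t + 1) : ℝ) - 1) (fun m => (om t (xi a b (m + c)) : ℝ)) := by
  have h1 := AP.sum (Q := Q) (Finset.univ : Finset (Pr a b))
    (fun p => if (p : ℕ) ∈ PI (zz t) (zz (t + 1)) then 1 else 0)
    (fun p m => if (p : ℕ) ∈ PI (zz t) (zz (t + 1)) then
      (if xi a b (m + c) p = true then 1 else 0) else 0) (fun p _ => by
      split_ifs
      · exact (AP.dvd (hQ p) (Pr_pos p) c).congr fun m => by simp [xi]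
      · exact AP.zero)
  refine (h1.mono ?_).congr fun m => om_eq_sum t _
  rw [Finset.sum_coe_sort (PI (zz a) (zz b))
    (fun p : ℕ => if p ∈ PI (zz t) (zz (t + 1)) then (1 : ℝ) else 0), Finset.sum_boole]
  have h2 : #{p ∈ PI (zz a) (zz b) | p ∈ PI (zz t) (zz (t + 1))} ≤
      #(Finset.Ioc 1 (zz (t + 1))) := by
    refine Finset.card_le_card fun p hp => ?_
    have := mem_PI.1 (Finset.mem_filter.1 hp).2
    exact Finset.mem_Ioc.2 ⟨this.2.2.one_lt, this.2.1⟩
  rw [Nat.card_Ioc] at h2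
  have h3 := two_le_zz (t + 1)
  rw [le_sub_iff_add_le]
  exact_mod_cast (by omega)

lemma AP_Bs (r t c : ℕ) :
    AP Q ((zz (t + 1) : ℝ) ^ (2 * r)) (fun m => Bs r (om t (xi a b (m + c)))) := by
  have h1 := AP.prod (Q := Q) (Finset.range r) (fun _ => (zz (t + 1) : ℝ))
    (fun j m => 1 - 1 / ((j : ℝ) + 1) * (om t (xi a b (m + c)) : ℝ)) (fun j _ => by
      refine (AP.one.sub ((AP_om hQ t c).smul (1 / ((j : ℝ) + 1)))).mono ?_
      have h3 : (2 : ℝ) ≤ zz (t + 1) := by exact_mod_cast two_le_zz (t + 1)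
      have h4 : |1 / ((j : ℝ) + 1)| ≤ 1 := by
        rw [abs_of_nonneg (by positivity), div_le_one (by positivity)]
        linarith [(Nat.cast_nonneg j : (0 : ℝ) ≤ j)]
      nlinarith)
  rw [Finset.prod_const, Finset.card_range] at h1
  refine ((h1.mul h1).mono (le_of_eq ?_)).congr fun m => by simp only [Bs, sq]
  rw [← pow_add, two_mul]

omit hQ in
lemma sum_exp_le (i : ℕ) : ∑ u ∈ Finset.range i, 2 ^ u * (i - u) ≤ 2 * 2 ^ i := by
  induction i with
  | zero => simp
  | succ i ih =>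
    have h1 : ∑ u ∈ Finset.range (i + 1), 2 ^ u * (i + 1 - u) =
        ∑ u ∈ Finset.range (i + 1), 2 ^ u * (i - u) + ∑ u ∈ Finset.range (i + 1), 2 ^ u := by
      rw [← Finset.sum_add_distrib]
      refine Finset.sum_congr rfl fun u hu => ?_
      rw [show i + 1 - u = i - u + 1 by have := Finset.mem_range.1 hu; omega]
      ring
    have h2 := Nat.geomSum_lt (m := 2) le_rfl (s := Finset.range (i + 1)) (n := i + 1)
      (fun k hk => Finset.mem_range.1 hk)
    rw [h1, Finset.sum_range_succ _ i, Nat.sub_self, mul_zero, add_zero]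
    rw [pow_succ] at h2 ⊢
    omega

lemma AP_bet (i c : ℕ) : AP Q ((zz i : ℝ) ^ 8) (fun m => bet i (xi a b (m + c))) := by
  refine (AP.prod (Q := Q) (Finset.Ico a i) _ _ fun u _ => AP_Bs hQ (i - u) u c).mono ?_
  have : ∏ u ∈ Finset.Ico a i, zz (u + 1) ^ (2 * (i - u)) ≤ zz i ^ 8 := by
    unfold zz
    simp only [← pow_mul]
    rw [Finset.prod_pow_eq_pow_sum]
    refine Nat.pow_le_pow_right (by norm_num) ?_
    have h1 := sum_exp_le i
    have h2 : ∑ u ∈ Finset.Ico a i, 2 ^ (u + 1) * (2 * (i - u)) ≤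
        ∑ u ∈ Finset.range i, 2 ^ (u + 1) * (2 * (i - u)) :=
      Finset.sum_le_sum_of_subset fun u hu => Finset.mem_range.2 (Finset.mem_Ico.1 hu).2
    have h3 : ∑ u ∈ Finset.range i, 2 ^ (u + 1) * (2 * (i - u)) =
        4 * ∑ u ∈ Finset.range i, 2 ^ u * (i - u) := by
      rw [Finset.mul_sum]
      exact Finset.sum_congr rfl fun u _ => by ring
    omega
  exact_mod_cast this

lemma AP_fk {i0 L : ℕ} (h5 : 5 ≤ i0) (k : Fin L) (c : ℕ) :
    AP Q ((zz (i0 + k) : ℝ) ^ 11) (fun m => fk i0 L k (xi a b (m + c))) := by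
  have h1 := (AP_bet hQ (i0 + k) c).mul
    (((AP_om hQ (i0 + k) c).sub (AP.const (sig (i0 + k)))).smul (1 / (L * sig (i0 + k))))
  refine h1.mono ?_
  have a1 := sig_ge (i0 + k) (by omega)
  have a2 : (1 : ℝ) ≤ L := by exact_mod_cast k.pos
  have a3 := sig_le (i0 + k)
  have a4 : 1 / (L * sig (i0 + k)) ≤ 12 := by
    rw [div_le_iff₀ (by positivity)]; nlinarith
  have a5 : (48 : ℝ) ≤ zz (i0 + k) := by
    have := zz_mono (show 3 ≤ i0 + k by omega)
    have e : zz 3 = 256 := by decide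
    exact_mod_cast (by omega : 48 ≤ zz (i0 + k))
  rw [abs_of_nonneg (sig_nonneg _), abs_of_nonneg (by positivity), zz_succ,
    show (11 : ℕ) = 8 + 3 by norm_num, pow_add]
  push_cast
  set z : ℝ := (zz (i0 + k) : ℝ)
  gcongr
  calc _ ≤ 12 * (z ^ 2 - 1 + 4) := by
        gcongr
        nlinarith [sig_nonneg (i0 + k)]
    _ ≤ _ := by nlinarith

end norms

/-- indicator of the integers free of small primes. -/
noncomputable def sS (t n : ℕ) : ℝ := ∏ p : Pr 0 t, if xi 0 t n p = true then 0 else 1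

lemma sS_cases (t n : ℕ) : sS t n = 0 ∨ (sS t n = 1 ∧ xi 0 t n = fun _ => false) := by
  by_cases h : ∃ p, xi 0 t n p = true
  · obtain ⟨p, hp⟩ := h
    exact Or.inl (Finset.prod_eq_zero (Finset.mem_univ p) (if_pos hp))
  · push Not at h
    exact Or.inr ⟨Finset.prod_eq_one fun p _ => if_neg (h p), funext fun p => by simpa using h p⟩

lemma sS_01 (t n : ℕ) : sS t n = 0 ∨ sS t n = 1 := (sS_cases t n).imp id And.left

lemma sS_prime {t n : ℕ} (hn : n.Prime) (hb : zz t < n) : sS t n = 1 := by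
  simp [sS, xi_prime hn hb]

lemma sS_mod (t n c : ℕ) : sS t (n + c) = sS t (n % QQ 0 t + c) := by
  unfold sS; rw [← xi_mod]

lemma sS_avg (t : ℕ) : (∑ m ∈ Finset.range (QQ 0 t), sS t m) / (QQ 0 t : ℝ) = VV 0 t := by
  refine (avg_loc (fun x : Loc 0 t => ∏ p, if x p = true then 0 else 1)).trans ?_
  rw [Ex_prod (wt 0 t) (fun _ y => if y = true then 0 else 1), VV,
    ← Finset.prod_coe_sort (PI (zz 0) (zz t))]
  exact Finset.prod_congr rfl fun p _ => by simp [wt]

lemma AP_sS {Q t : ℕ} (hQ : QQ 0 t ∣ Q) (c : ℕ) : AP Q (QQ 0 t) (fun m => sS t (m + c)) := by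
  have := AP.periodic (g := fun m => sS t (m + c)) (B := 1) hQ (QQ_pos 0 t) (fun m => sS_mod t m c)
    (fun m => by rcases sS_01 t (m + c) with h | h <;> simp [h])
  simpa using this

lemma VV_zero_ge (t : ℕ) : 1 ≤ (zz t : ℝ) ^ 8 * VV 0 t := by
  have h1 := VV_ge 0 t
  rw [zero_add] at h1
  have h2 : Real.exp t ≤ zz t := by
    have h3 : Real.exp 1 ^ t ≤ 4 ^ t := by
      gcongr; linarith [Real.exp_one_lt_d9]
    rw [← Real.exp_nat_mul, mul_one] at h3
    refine h3.trans ?_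
    have h4 : 4 ^ t ≤ zz t := by
      unfold zz
      rw [show 4 ^ t = 2 ^ (2 * t) by rw [pow_mul]; norm_num]
      refine Nat.pow_le_pow_right (by norm_num) ?_
      rcases t with _ | t
      · simp
      · have := @Nat.lt_two_pow_self t
        rw [pow_succ]; omega
    exact_mod_cast h4
  calc (1 : ℝ) = Real.exp t ^ 8 * Real.exp (-8 * t) := by
        rw [← Real.exp_nat_mul, ← Real.exp_add]; simp
    _ ≤ _ := by gcongr

/-- the small sieve holds in every short interval. -/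
lemma sum_sS_le {t h : ℕ} (hh : zz t ^ 16 ≤ h) (c : ℕ) :
    ∑ j ∈ Finset.range h, sS t (c + j) ≤ (Real.exp (kap 9) + 1) * (h * VV 0 t) := by
  have h1 := (AP_bet (a := 0) (b := t) dvd_QQ t 0).transfer (QQ_pos 0 t) c h
  simp only [add_zero] at h1
  rw [avg_loc (bet t)] at h1
  have h2 := Ex_bet (a := 0) (b := t) (Nat.zero_le t) le_rfl
  have h3 : ∑ j ∈ Finset.range h, sS t (c + j) ≤ ∑ j ∈ Finset.range h, bet t (xi 0 t (c + j)) := by
    refine Finset.sum_le_sum fun j _ => ?_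
    rcases sS_cases t (c + j) with h | h
    · rw [h]; exact bet_nonneg _ _
    · rw [h.1, h.2, bet_false]
  have h4 : (zz t : ℝ) ^ 8 ≤ h * VV 0 t := by
    have h5 : (zz t : ℝ) ^ 16 ≤ h := by exact_mod_cast hh
    calc _ ≤ (zz t : ℝ) ^ 8 * ((zz t : ℝ) ^ 8 * VV 0 t) :=
          le_mul_of_one_le_right (by positivity) (VV_zero_ge t)
      _ = (zz t : ℝ) ^ 16 * VV 0 t := by ring
      _ ≤ _ := mul_le_mul_of_nonneg_right h5 (VV_nonneg _ _)
  have h6 : (h : ℝ) * Ex (wt 0 t) (bet t) ≤ h * (VV 0 t * Real.exp (kap 9)) := by gcongr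
  nlinarith

/-- chi-square bound at one prime. -/
lemma chi_one {P : Type*} [Fintype P] [DecidableEq P] (v : P → ℕ) (hv : Function.Injective v)
    (p : ℕ) (hvp : ∀ i, v i < p) (hE : 2 * Fintype.card P ≤ p) (hp : 2 ≤ p) :
    ∑ y : P → Bool, ((#{m ∈ Finset.range p | (fun i => decide (p ∣ m + v i)) = y} : ℝ) / p) ^ 2 /
      ∏ i, (if y i then 1 / (p : ℝ) else 1 - 1 / (p : ℝ)) ≤ 1 + 2 * ((Fintype.card P : ℝ) / p) ^ 2 := by
  set E := Fintype.card P with hEdef
  set ξ : ℕ → P → Bool := fun m i => decide (p ∣ m + v i) with hξ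
  set π : (P → Bool) → ℝ := fun y => ∏ i, (if y i then 1 / (p : ℝ) else 1 - 1 / (p : ℝ)) with hπ
  set c : (P → Bool) → ℕ := fun y => #{m ∈ Finset.range p | ξ m = y} with hc
  have hp' : (2 : ℝ) ≤ p := by exact_mod_cast hp
  have hE' : 2 * (E : ℝ) ≤ p := by exact_mod_cast hE
  have h1p : 1 / (p : ℝ) ≤ 1 / 2 := one_div_le_one_div_of_le (by norm_num) hp'
  have h0p : 0 < 1 / (p : ℝ) := by positivity
  let r : P → ℕ := fun i => if v i = 0 then 0 else p - v i
  have hr : ∀ i m, m < p → (p ∣ m + v i ↔ m = r i) := by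
    intro i m hm
    have := hvp i
    simp only [r]
    constructor
    · rintro ⟨k, hk⟩
      have : k < 2 := by nlinarith
      interval_cases k <;> split_ifs <;> omega
    · rintro rfl
      split_ifs with h
      · simp [h]
      · rw [Nat.sub_add_cancel this.le]
  have hrp : ∀ i, r i < p := fun i => by
    have := hvp i
    simp only [r]; split_ifs <;> omega
  have hri : Function.Injective r := by
    intro i j h
    apply hv
    have := hvp i
    have := hvp j
    simp only [r] at h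
    split_ifs at h <;> omega
  have e1 : ∑ y : P → Bool, ((c y : ℝ) / p) ^ 2 / π y =
      ∑ m ∈ Finset.range p, (c (ξ m) : ℝ) / (p ^ 2 * π (ξ m)) := by
    rw [← Finset.sum_fiberwise (s := Finset.range p) ξ]
    refine Finset.sum_congr rfl fun y _ => ?_
    rw [Finset.sum_congr rfl (g := fun _ => (c y : ℝ) / (p ^ 2 * π y))
      (fun m hm => by rw [(Finset.mem_filter.1 hm).2]), Finset.sum_const, nsmul_eq_mul]
    change _ = (c y : ℝ) * _
    ring
  change ∑ y : P → Bool, ((c y : ℝ) / p) ^ 2 / π y ≤ _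
  have hsub : Finset.univ.image r ⊆ Finset.range p := by
    intro m hm
    obtain ⟨i, _, rfl⟩ := Finset.mem_image.1 hm
    exact Finset.mem_range.2 (hrp i)
  have hcard : (#(Finset.range p \ Finset.univ.image r) : ℝ) = p - E := by
    rw [Finset.card_sdiff_of_subset hsub, Nat.cast_sub (Finset.card_le_card hsub),
      Finset.card_range, Finset.card_image_of_injective _ hri, Finset.card_univ]
  set u : ℝ := (1 - 1 / (p : ℝ)) ^ E with hu
  have hu1 : 1 - E / p ≤ u := by
    have := one_add_mul_le_pow (a := -(1 / (p : ℝ))) (by linarith) E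
    rw [hu, sub_eq_add_neg 1 (1 / (p : ℝ))]
    refine le_trans (le_of_eq ?_) this
    ring
  have hE2 : (E : ℝ) / p ≤ 1 / 2 := by rw [div_le_iff₀ (by positivity)]; linarith
  have hu0 : 0 < u := by linarith
  rw [e1, ← Finset.sum_sdiff hsub, Finset.sum_image fun i _ j _ h => hri h]
  have b1 : ∀ m ∈ Finset.range p \ Finset.univ.image r,
      (c (ξ m) : ℝ) / (p ^ 2 * π (ξ m)) ≤ (p - E) / (p ^ 2 * u) := by
    intro m hm
    obtain ⟨hm1, hm2⟩ := Finset.mem_sdiff.1 hm
    have hf : ξ m = fun _ => false := by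
      funext i
      simp only [hξ, decide_eq_false_iff_not, hr i m (Finset.mem_range.1 hm1)]
      rintro rfl
      exact hm2 (Finset.mem_image_of_mem _ (Finset.mem_univ _))
    have : π (fun _ => false) = u := by simp [hπ, hu, hEdef]
    rw [hf, this, ← hcard]
    gcongr
    refine Finset.card_le_card fun m' hm' => ?_
    obtain ⟨h1, h2⟩ := Finset.mem_filter.1 hm'
    refine Finset.mem_sdiff.2 ⟨h1, fun h3 => ?_⟩
    obtain ⟨i, _, rfl⟩ := Finset.mem_image.1 h3
    have := congrFun h2 i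
    simp only [hξ, decide_eq_false_iff_not, hr i _ (hrp i)] at this
    exact this trivial
  have b2 : ∀ i ∈ (Finset.univ : Finset P),
      (c (ξ (r i)) : ℝ) / (p ^ 2 * π (ξ (r i))) ≤ 1 / (p ^ 2 * (1 / p * u)) := by
    intro i _
    have c1 : c (ξ (r i)) ≤ 1 := by
      refine Finset.card_le_one.2 fun m hm m' hm' => ?_
      have k : ∀ m ∈ (Finset.range p).filter (fun m => ξ m = ξ (r i)), m = r i := by
        intro m hm
        obtain ⟨h1, h2⟩ := Finset.mem_filter.1 hm
        have := congrFun h2 i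
        simpa only [hξ, hr i _ (hrp i), hr i _ (Finset.mem_range.1 h1), decide_true,
          decide_eq_true_eq] using this
      rw [k m hm, k m' hm']
    have c2 : 1 / p * u ≤ π (ξ (r i)) := by
      simp only [hπ]
      rw [← Finset.mul_prod_erase Finset.univ _ (Finset.mem_univ i)]
      have d1 : ξ (r i) i = true := by simp only [hξ, hr i _ (hrp i), decide_true]
      have d2 : ∀ j ∈ Finset.univ.erase i,
          (if ξ (r i) j then 1 / (p : ℝ) else 1 - 1 / (p : ℝ)) = 1 - 1 / (p : ℝ) := by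
        intro j hj
        rw [if_neg]
        simp only [hξ, hr j _ (hrp i), decide_eq_true_eq]
        exact fun h => Finset.ne_of_mem_erase hj (hri h).symm
      rw [if_pos d1, Finset.prod_congr rfl d2, Finset.prod_const]
      gcongr
      exact pow_le_pow_of_le_one (by linarith) (by linarith) (Finset.card_le_univ _)
    have c3 : (c (ξ (r i)) : ℝ) ≤ 1 := by exact_mod_cast c1
    gcongr
  refine (add_le_add (Finset.sum_le_card_nsmul _ _ _ b1) (Finset.sum_le_card_nsmul _ _ _ b2)).trans ?_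
  rw [nsmul_eq_mul, nsmul_eq_mul, hcard, Finset.card_univ, ← hEdef]
  have e2 : ((p : ℝ) - E) * ((p - E) / (p ^ 2 * u)) + E * (1 / (p ^ 2 * (1 / p * u))) =
      ((1 - E / p) + (E / p) ^ 2) / u := by
    field_simp
    ring
  rw [e2, div_le_iff₀ hu0]
  have hE0 : (0 : ℝ) ≤ E / p := by positivity
  set x : ℝ := E / p
  nlinarith [mul_le_mul_of_nonneg_left hu1 (by positivity : 0 ≤ 1 + 2 * x ^ 2), sq_nonneg x,
    mul_le_mul_of_nonneg_left hE2 (sq_nonneg x)]

lemma chi_prod (E : ℝ) (a b : ℕ) (hab : a ≤ b) :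
    ∏ p : Pr a b, (1 + 2 * (E / ((p : ℕ) : ℝ)) ^ 2) ≤ Real.exp (2 * E ^ 2 / zz a) := by
  rw [Finset.prod_coe_sort (PI (zz a) (zz b)) (fun p : ℕ => 1 + 2 * (E / (p : ℝ)) ^ 2)]
  have h1 := sum_Ioc_inv_sq_le_sub (α := ℝ) (k := zz a) (n := zz b)
    (by have := two_le_zz a; omega) (zz_mono hab)
  have h2 : ∑ p ∈ PI (zz a) (zz b), (((p : ℝ)) ^ 2)⁻¹ ≤ ∑ p ∈ Finset.Ioc (zz a) (zz b), (((p : ℝ)) ^ 2)⁻¹ :=
    Finset.sum_le_sum_of_subset_of_nonneg (Finset.filter_subset _ _) fun _ _ _ => by positivity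
  calc _ ≤ ∏ p ∈ PI (zz a) (zz b), Real.exp (2 * E ^ 2 * (((p : ℝ)) ^ 2)⁻¹) := by
        refine Finset.prod_le_prod (fun _ _ => by positivity) fun p _ => ?_
        refine le_trans (le_of_eq ?_) (Real.add_one_le_exp _)
        ring
    _ = Real.exp (2 * E ^ 2 * ∑ p ∈ PI (zz a) (zz b), (((p : ℝ)) ^ 2)⁻¹) := by
        rw [← Real.exp_sum, Finset.mul_sum]
    _ ≤ _ := by
        rw [Real.exp_le_exp, div_eq_mul_inv]
        have : (0 : ℝ) ≤ (zz b : ℝ)⁻¹ := by positivity
        gcongr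
        linarith

end Crest.Agent.H1Gap
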