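import Crest.Agent.H1Gap.Global
import Crest.Agent.H1Gap.Arith

set_option autoImplicit false

namespace Crest.Agent.H1Gap

open Finset

attribute [local irreducible] kap VV zz

/-- positions. -/
def pv {T h : ℕ} : Option (Fin T × Fin h) → ℕ
  | none => 0
  | some q => q.1 * h + q.2 + 1

lemma pv_inj {T h : ℕ} : Function.Injective (pv (T := T) (h := h)) := by
  rintro (_ | ⟨i, j⟩) (_ | ⟨i', j'⟩) e
  · rfl
  · simp [pv] at e
  · simp [pv] at e
  · simp only [pv, add_left_inj] at e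
    have h0 : 0 < h := j.pos
    have e1 : (i.val * h + j) / h = (i'.val * h + j') / h := by rw [e]
    rw [add_comm, add_comm (i'.val * h), Nat.add_mul_div_right _ _ h0, Nat.add_mul_div_right _ _ h0,
      Nat.div_eq_of_lt j.isLt, Nat.div_eq_of_lt j'.isLt, zero_add, zero_add] at e1
    have e2 : i = i' := Fin.ext e1
    subst e2
    have e3 : j = j' := Fin.ext (by omega)
    rw [e3]

lemma pv_le {T h : ℕ} (q : Option (Fin T × Fin h)) : pv q ≤ T * h := by
  rcases q with _ | ⟨i, j⟩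
  · simp [pv]
  · simp only [pv]
    have h1 := i.isLt
    have h2 := j.isLt
    nlinarith

noncomputable def sv (T h t m : ℕ) : Option (Fin T × Fin h) → ℝ := fun q => sS t (m + pv q)

def xv (T h a b m : ℕ) : Option (Fin T × Fin h) → Loc a b := fun q => xi a b (m + pv q)

noncomputable def pw (a b : ℕ) : Loc a b → ℝ := fun x => ∏ p, wt a b p (x p)

lemma pw_sum (a b : ℕ) : ∑ x, pw a b x = 1 := sum_weight wt_sum

lemma pw_nonneg (a b : ℕ) (x : Loc a b) : 0 ≤ pw a b x := Finset.prod_nonneg fun _ _ => wt_nonneg _ _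

lemma pw_Ex {a b : ℕ} (F : Loc a b → ℝ) : ∑ x, pw a b x * F x = Ex (wt a b) F := rfl

noncomputable def K1 : ℝ := Real.exp (kap 9) + 1
noncomputable def c0 : ℝ := 3 * Real.exp 64
noncomputable def c1 : ℝ := K1 * c0 * Real.exp (kap 9)
noncomputable def c2 : ℝ := K1 * c0 * (Real.exp (kap 81) * (3600 * Real.exp 16))
noncomputable def c3 (L : ℕ) : ℝ := 61 ^ 14 * Real.exp (kap (9 ^ 14) * (1 + L))
noncomputable def Bx (Dd : ℝ) (L : ℕ) : ℝ := K1 * c0 * c3 L * Dd
noncomputable def G3 (Dd : ℝ) (L T : ℕ) : ℝ :=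
  (5 * (1 + Real.exp (Bx Dd L)) ^ 2) ^ 2 * Real.exp (c3 L + T * Bx Dd L)

lemma K1_pos : 0 < K1 := by unfold K1; positivity
lemma c0_pos : 0 < c0 := by unfold c0; positivity
lemma c1_pos : 0 < c1 := by unfold c1; have := K1_pos; have := c0_pos; positivity
lemma c2_pos : 0 < c2 := by unfold c2; have := K1_pos; have := c0_pos; positivity
lemma c3_pos (L : ℕ) : 0 < c3 L := by unfold c3; positivity

attribute [local irreducible] K1 c0 c1 c2 c3 Bx G3

lemma VV_mul_le {t j : ℕ} (hj : t + 8 ≤ j) : VV 0 t * VV (t + 8) j ≤ c0 / 2 ^ j := by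
  have h1 := VV_zero_le j
  rw [VV_split (Nat.zero_le t) (by omega : t ≤ j), VV_split (by omega : t ≤ t + 8) hj] at h1
  have h2 := VV_ge t 8
  have h3 : 1 ≤ Real.exp 64 * VV t (t + 8) := by
    calc (1 : ℝ) = Real.exp 64 * Real.exp (-8 * (8 : ℕ)) := by
          rw [← Real.exp_add]; norm_num
      _ ≤ _ := by gcongr
  have h4 := mul_nonneg (VV_nonneg 0 t) (VV_nonneg (t + 8) j)
  calc _ ≤ (Real.exp 64 * VV t (t + 8)) * (VV 0 t * VV (t + 8) j) := le_mul_of_one_le_left h4 h3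
    _ = Real.exp 64 * (VV 0 t * (VV t (t + 8) * VV (t + 8) j)) := by ring
    _ ≤ Real.exp 64 * (3 / 2 ^ j) := by gcongr
    _ = _ := by unfold c0; ring

lemma sv_01 (T h t m : ℕ) (q : Option (Fin T × Fin h)) : sv T h t m q = 0 ∨ sv T h t m q = 1 :=
  sS_01 _ _

lemma sv_nonneg (T h t m : ℕ) (q : Option (Fin T × Fin h)) : 0 ≤ sv T h t m q := by
  rcases sv_01 T h t m q with h | h <;> simp [h]

lemma sum_win_le {T h t : ℕ} (hh : zz t ^ 16 ≤ h) (m : ℕ) (i : Fin T) :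
    ∑ j, win (sv T h t m) i j ≤ K1 * (h * VV 0 t) := by
  unfold K1
  refine le_trans (le_of_eq ?_) (sum_sS_le hh (m + i * h + 1))
  rw [← Fin.sum_univ_eq_sum_range (fun j => sS t (m + i * h + 1 + j))]
  refine Finset.sum_congr rfl fun j _ => ?_
  simp only [win, sv, pv]
  congr 1
  ring

section core
variable {t i0 L T h : ℕ} {Dd : ℝ} (h5 : 5 ≤ i0) (ht : t + 8 ≤ i0)
  (hh3 : (h : ℝ) ≤ Dd * 2 ^ (i0 + L))

include ht hh3 in
lemma M_VV : K1 * (h * VV 0 t) * VV (t + 8) (i0 + L) ≤ K1 * c0 * Dd := by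
  have h1 := VV_mul_le (t := t) (j := i0 + L) (by omega)
  have := K1_pos
  have := c0_pos
  have h2 : (h : ℝ) / 2 ^ (i0 + L) ≤ Dd := by rw [div_le_iff₀ (by positivity)]; exact hh3
  calc _ = K1 * h * (VV 0 t * VV (t + 8) (i0 + L)) := by ring
    _ ≤ K1 * h * (c0 / 2 ^ (i0 + L)) := by gcongr
    _ = K1 * c0 * (h / 2 ^ (i0 + L)) := by ring
    _ ≤ _ := by gcongr

include ht hh3 in
lemma M_EP : K1 * (h * VV 0 t) * Ex (wt (t + 8) (i0 + L)) (bet (i0 + L)) ≤ c1 * Dd := by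
  have h1 := Ex_bet (a := t + 8) (b := i0 + L) (i := i0 + L) (by omega) le_rfl
  have h2 := M_VV ht hh3
  have := K1_pos
  have := VV_nonneg 0 t
  calc _ ≤ K1 * (h * VV 0 t) * (VV (t + 8) (i0 + L) * Real.exp (kap 9)) := by gcongr
    _ = K1 * (h * VV 0 t) * VV (t + 8) (i0 + L) * Real.exp (kap 9) := by ring
    _ ≤ K1 * c0 * Dd * Real.exp (kap 9) := by gcongr
    _ = _ := by unfold c1; ring

include ht in
lemma eta_le : ∑ x, pw (t + 8) (i0 + L) x * ((1 + 60 * Gam i0 (i0 + L) x) ^ 14 - 1) ≤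
    VV (t + 8) (i0 + L) * c3 L := by
  unfold c3
  exact Ex_Gam ht le_rfl

lemma eta_nonneg {a b : ℕ} : 0 ≤ ∑ x, pw a b x * ((1 + 60 * Gam i0 (i0 + L) x) ^ 14 - 1) := by
  refine Finset.sum_nonneg fun x _ => mul_nonneg (pw_nonneg _ _ _) ?_
  have := Gam_nonneg i0 (i0 + L) x
  rw [sub_nonneg]
  exact one_le_pow₀ (by linarith)

include ht hh3 in
lemma M_eta : K1 * (h * VV 0 t) *
    ∑ x, pw (t + 8) (i0 + L) x * ((1 + 60 * Gam i0 (i0 + L) x) ^ 14 - 1) ≤ Bx Dd L := by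
  have h1 := eta_le (L := L) ht
  have h2 := M_VV ht hh3
  have := K1_pos
  have := VV_nonneg 0 t
  have := c3_pos L
  calc _ ≤ K1 * (h * VV 0 t) * (VV (t + 8) (i0 + L) * c3 L) := by gcongr
    _ = K1 * (h * VV 0 t) * VV (t + 8) (i0 + L) * c3 L := by ring
    _ ≤ K1 * c0 * Dd * c3 L := by gcongr
    _ = _ := by unfold Bx; ring

lemma bet_le_60 {a b : ℕ} (x : Loc a b) : bet (i0 + L) x ≤ 60 * Gam i0 (i0 + L) x := by
  have := bet_le_Gam (Nat.le_add_right i0 L) x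
  have := Gam_nonneg i0 (i0 + L) x
  linarith

variable (hh1 : zz t ^ 16 ≤ h)

include h5 ht hh3 hh1 in
lemma win_mom (m : ℕ) (i : Fin T) :
    Ex (fun _ : Fin h => pw (t + 8) (i0 + L))
      (fun x => uu (fk i0 L) (bet (i0 + L)) (win (sv T h t m) i) x ^ 2) ≤ Real.exp (Bx Dd L) ∧
    |ee (pw (t + 8) (i0 + L)) (fk i0 L) (bet (i0 + L)) (win (sv T h t m) i)| ≤ Real.exp (Bx Dd L) :=
  Ex_uu_sq (γ := fun x => 60 * Gam i0 (i0 + L) x) (pw_sum _ _) (pw_nonneg _ _) (bet_nonneg _)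
    bet_le_60 (sum_abs_fk h5 ht) (fun _ => sv_01 _ _ _ _ _)
    ((mul_le_mul_of_nonneg_right (sum_win_le hh1 m i) eta_nonneg).trans (M_eta ht hh3))

include h5 ht hh3 hh1 in
lemma ee_ge (hL : 0 < L) (hLbig : 2 * (c1 * Dd) * (c2 * Dd) ≤ L) (m : ℕ) (i : Fin T) :
    1 / 2 ≤ ee (pw (t + 8) (i0 + L)) (fk i0 L) (bet (i0 + L)) (win (sv T h t m) i) := by
  have hA : ∀ k : Fin L, 0 ≤ Ex (wt (t + 8) (i0 + L)) (fun x => fk i0 L k x * fk i0 L k x) :=
    fun k => Ex_nonneg wt_nonneg fun x => mul_self_nonneg _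
  have hEP : 0 ≤ Ex (wt (t + 8) (i0 + L)) (bet (i0 + L)) := Ex_nonneg wt_nonneg (bet_nonneg _)
  refine Ex_uu hL (pw_sum _ _) _ (fun k => Ex (wt _ _) (fun x => fk i0 L k x * fk i0 L k x)) hA
    (fun k => Ex_fk ht le_rfl k) ?_ _ hEP _ (fun j => sv_nonneg _ _ _ _ _) ?_ ?_
  · intro k k'
    rcases lt_trichotomy k k' with hk | rfl | hk
    · rw [if_neg hk.ne]; exact Ex_fk_mul ht le_rfl hk
    · rw [if_pos rfl]; rfl
    · rw [if_neg hk.ne']
      simp only [mul_comm (fk i0 L k _)]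
      exact Ex_fk_mul ht le_rfl hk
  · intro j
    rcases sv_01 T h t m (some (i, j)) with e | e <;> simp [win, e]
  · have hM := sum_win_le hh1 m i
    have hs : 0 ≤ ∑ j, win (sv T h t m) i j := Finset.sum_nonneg fun j _ => sv_nonneg _ _ _ _ _
    have hL' : (0 : ℝ) < L := by exact_mod_cast hL
    have := K1_pos
    have := VV_nonneg 0 t
    have := c0_pos
    have := c1_pos
    have := c2_pos
    have hDd : 0 ≤ Dd := by
      by_contra hn
      have : Dd * 2 ^ (i0 + L) < 0 := mul_neg_of_neg_of_pos (not_le.1 hn) (by positivity)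
      linarith [(Nat.cast_nonneg h : (0 : ℝ) ≤ h)]
    have b1 : (∑ j, win (sv T h t m) i j) * Ex (wt (t + 8) (i0 + L)) (bet (i0 + L)) ≤ c1 * Dd :=
      (mul_le_mul_of_nonneg_right hM hEP).trans (M_EP ht hh3)
    have b2 : ∀ k : Fin L, (∑ j, win (sv T h t m) i j) * (2 ^ k.val *
        Ex (wt (t + 8) (i0 + L)) (fun x => fk i0 L k x * fk i0 L k x)) ≤
        c2 * Dd * 2 ^ L / L ^ 2 := by
      intro k
      have d1 := Ex_fk_sq (a := t + 8) (b := i0 + L) h5 ht le_rfl k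
      have d2 := VV_mul_le (t := t) (j := i0 + k) (by omega)
      have d3 := hA k
      calc _ ≤ K1 * (h * VV 0 t) * (2 ^ k.val * (VV (t + 8) (i0 + k) *
            (Real.exp (kap 81) * (3600 * Real.exp 16)) / L ^ 2)) := by gcongr
        _ = K1 * h * 2 ^ k.val * (Real.exp (kap 81) * (3600 * Real.exp 16)) / L ^ 2 *
            (VV 0 t * VV (t + 8) (i0 + k)) := by ring
        _ ≤ K1 * (Dd * 2 ^ (i0 + L)) * 2 ^ k.val *
            (Real.exp (kap 81) * (3600 * Real.exp 16)) / L ^ 2 * (c0 / 2 ^ (i0 + k)) := by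
            gcongr
            exact mul_nonneg (VV_nonneg _ _) (VV_nonneg _ _)
        _ = _ := by unfold c2; field_simp; ring
    have b3 : (∑ j, win (sv T h t m) i j) * ∑ k : Fin L, 2 ^ k.val *
        Ex (wt (t + 8) (i0 + L)) (fun x => fk i0 L k x * fk i0 L k x) ≤ c2 * Dd * 2 ^ L / L := by
      rw [Finset.mul_sum]
      refine (Finset.sum_le_card_nsmul _ _ _ fun k _ => b2 k).trans (le_of_eq ?_)
      rw [Finset.card_univ, Fintype.card_fin, nsmul_eq_mul]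
      field_simp
    calc _ ≤ (c1 * Dd) * (c2 * Dd * 2 ^ L / L) := by
          refine mul_le_mul b1 b3 (mul_nonneg hs (Finset.sum_nonneg fun k _ =>
            mul_nonneg (by positivity) (hA k))) (by positivity)
      _ = (2 * (c1 * Dd) * (c2 * Dd) / L) * (2 ^ L / 2) := by ring
      _ ≤ 1 * (2 ^ L / 2) := by gcongr; rw [div_le_one hL']; exact hLbig
      _ = _ := one_mul _

/-- the test function. -/
noncomputable def Fm (t i0 L T h : ℕ) (D : ℝ) (m : ℕ) : ℝ :=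
  Phi (pw (t + 8) (i0 + L)) (fk i0 L) (bet (i0 + L)) D (sv T h t m) (xv T h (t + 8) (i0 + L) m)

lemma Fm_nonneg {D : ℝ} (hD : 0 < D) (m : ℕ) : 0 ≤ Fm t i0 L T h D m :=
  Phi_nonneg (bet_nonneg _) hD (sv_nonneg _ _ _ _) _

include h5 ht hh3 hh1 in
lemma one_le_Fm (hL : 0 < L) (hLbig : 2 * (c1 * Dd) * (c2 * Dd) ≤ L) (hT : 0 < T) {D : ℝ}
    (hD : 0 < D) {m : ℕ} (hm : m.Prime) (hmb : zz (i0 + L) < m)
    (hbad : (∀ i : Fin T, ∃ j : Fin h, (m + pv (some (i, j))).Prime) ∨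
      D ≤ #{q : Fin T × Fin h | (m + pv (some q)).Prime}) : 1 ≤ Fm t i0 L T h D m := by
  have hz : zz t ≤ zz (i0 + L) := zz_mono (by omega)
  have k1 : ∀ q : Option (Fin T × Fin h), (m + pv q).Prime → sv T h t m q = 1 :=
    fun q hq => sS_prime hq (by omega)
  have k2 : ∀ q : Option (Fin T × Fin h), (m + pv q).Prime →
      xv T h (t + 8) (i0 + L) m q = fun _ => false := fun q hq => xi_prime hq (by omega)
  have k3 : bet (i0 + L) (xv T h (t + 8) (i0 + L) m none) = 1 := by rw [k2 none hm, bet_false]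
  rcases hbad with hb | hb
  · refine one_le_Phi_left (bet_nonneg _) hD (sv_nonneg _ _ _ _) _ (by simpa using hT)
      (k1 none hm) k3 (fun i => ?_) (ee_ge h5 ht hh3 hh1 hL hLbig m)
    obtain ⟨j, hj⟩ := hb i
    refine uu_nonpos _ _ (bet_nonneg _) _ (fun _ => sv_nonneg _ _ _ _ _) _ j (k1 _ hj) ?_ ?_
    · intro k
      simp only [win, k2 _ hj, fk_false h5]
    · simp only [win, k2 _ hj, bet_false]
  · refine one_le_Phi_right hD _ (k1 none hm) k3 (hb.trans ?_)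
    rw [Finset.card_eq_sum_ones, Nat.cast_sum]
    refine le_trans (Finset.sum_le_sum fun q hq => ?_)
      (Finset.sum_le_sum_of_subset_of_nonneg (Finset.subset_univ _) fun q _ _ =>
        mul_nonneg (sv_nonneg _ _ _ _ _) (bet_nonneg _ _))
    have := (Finset.mem_filter.1 hq).2
    rw [k1 _ this, k2 _ this, bet_false]
    simp

lemma sv_mod (m : ℕ) : sv T h t m = sv T h t (m % QQ 0 t) := funext fun _ => sS_mod _ _ _

include h5 ht hh3 hh1 in
lemma AP_Fm (hL : 0 < L) (hT : 0 < T) {D : ℝ} (hD : 1 ≤ D) (hQ : 4 ^ zz t ≤ zz i0)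
    (hhL : h * L ≤ zz i0) (hTz : T ≤ zz i0) (hB : Real.exp (Bx Dd L) ≤ zz i0) :
    AP (QQ 0 t * QQ (t + 8) (i0 + L)) (zz (i0 + L + 10)) (Fm t i0 L T h D) := by
  have hQ' : (QQ 0 t : ℝ) ≤ zz i0 := by exact_mod_cast (QQ_le 0 t).trans hQ
  have hz : (2 : ℝ) ≤ zz i0 := by exact_mod_cast two_le_zz i0
  have hz1 : (zz i0 : ℝ) ≤ (zz i0 : ℝ) ^ 16 := le_self_pow₀ (by linarith) (by norm_num)
  have hdv : ∀ p : Pr (t + 8) (i0 + L), (p : ℕ) ∣ QQ 0 t * QQ (t + 8) (i0 + L) :=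
    fun p => (dvd_QQ p).mul_left _
  have hk : ∀ k : ℕ, ((zz i0 : ℝ) ^ 16) ^ (2 ^ k) = (zz (i0 + k) : ℝ) ^ 16 := by
    intro k
    rw [zz_add, ← pow_mul, mul_comm, pow_mul]
    push_cast; rfl
  have hk1 : ∀ k : ℕ, (zz i0 : ℝ) ≤ zz (i0 + k) := fun k => by
    exact_mod_cast zz_mono (Nat.le_add_right i0 k)
  refine (AP_Phi hL (sv T h t) (xv T h (t + 8) (i0 + L)) ((zz i0 : ℝ) ^ 16) ?_ ?_ (by simpa using hT)
    ?_ hD ?_ ?_ ?_).mono ?_
  · calc (3 : ℝ) ≤ 2 ^ 16 := by norm_num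
      _ ≤ _ := by gcongr
  · rw [Fintype.card_fin]
    exact le_trans (by exact_mod_cast hhL) hz1
  · rw [Fintype.card_fin]
    exact le_trans (by exact_mod_cast hTz) hz1
  · intro q k
    refine ((AP_sS (Dvd.intro _ rfl) (pv q)).mul (AP_fk hdv h5 k (pv q))).mono ?_
    rw [hk]
    have := hk1 k
    calc _ ≤ (zz (i0 + k) : ℝ) * (zz (i0 + k) : ℝ) ^ 11 :=
          mul_le_mul_of_nonneg_right (by linarith) (by positivity)
      _ = (zz (i0 + k) : ℝ) ^ 12 := by ring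
      _ ≤ _ := pow_le_pow_right₀ (by linarith) (by norm_num)
  · intro q
    refine ((AP_sS (Dvd.intro _ rfl) (pv q)).mul (AP_bet hdv (i0 + L) (pv q))).mono ?_
    rw [hk]
    have := hk1 (L + 1)
    have h2 : (zz (i0 + L) : ℝ) ≤ zz (i0 + (L + 1)) := by exact_mod_cast zz_mono (by omega)
    calc _ ≤ (zz (i0 + (L + 1)) : ℝ) * (zz (i0 + (L + 1)) : ℝ) ^ 8 :=
          mul_le_mul (by linarith) (pow_le_pow_left₀ (by positivity) h2 8) (by positivity)
            (by positivity)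
      _ = (zz (i0 + (L + 1)) : ℝ) ^ 9 := by ring
      _ ≤ _ := pow_le_pow_right₀ (by linarith) (by norm_num)
  · intro i
    refine (AP.periodic (Dvd.intro _ rfl) (QQ_pos 0 t) (fun m => by rw [← sv_mod])
      (fun m => (win_mom h5 ht hh3 hh1 m i).2)).mono ?_
    rw [sq]
    gcongr <;> linarith
  · rw [pow_mul', hk, ← pow_mul, show i0 + L + 10 = i0 + (L + 1) + 9 by ring, zz_add (i0 + (L + 1))]
    push_cast
    exact pow_le_pow_right₀ (by linarith [hk1 (L + 1)]) (by norm_num)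

include h5 ht hh3 hh1 in
lemma avg_Fm (hT : 0 < T) {D : ℝ} (hD : 1 ≤ D) (hh2 : h ^ 8 ≤ zz (t + 8)) (hT2 : 4 * T ≤ h) :
    (∑ m ∈ Finset.range (QQ 0 t * QQ (t + 8) (i0 + L)), Fm t i0 L T h D m) /
      ((QQ 0 t * QQ (t + 8) (i0 + L) : ℕ) : ℝ) ≤
      c0 * Real.exp (kap 9) * (4 * Real.exp (Bx Dd L) / T + T * (c1 * Dd) / D) / 2 ^ (i0 + L) +
        4 * T * G3 Dd L T / h ^ 3 := by
  classical
  have hT' : (1 : ℝ) ≤ T := by exact_mod_cast hT
  have hT2' : 4 * (T : ℝ) ≤ h := by exact_mod_cast hT2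
  have hQ0 : (0 : ℝ) < QQ 0 t := by exact_mod_cast QQ_pos 0 t
  have hcop : ∀ p : Pr (t + 8) (i0 + L), Nat.Coprime (QQ 0 t) p := by
    intro p
    refine Nat.Coprime.prod_left fun q _ => ?_
    have h1 := mem_PI.1 p.2
    have h2 := mem_PI.1 q.2
    have h3 := zz_mono (show t ≤ t + 8 by omega)
    exact (Nat.coprime_primes h2.2.2 h1.2.2).2 (by omega)
  set Ψ : ℕ → (Pr (t + 8) (i0 + L) → Option (Fin T × Fin h) → Bool) → ℝ := fun m Y =>
    Phi (pw (t + 8) (i0 + L)) (fk i0 L) (bet (i0 + L)) D (sv T h t m) (fun q p => Y p q) with hΨ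
  have e1 := avg_model (QQ 0 t) (QQ_pos 0 t) (fun p : Pr (t + 8) (i0 + L) => (p : ℕ)) Pr_pos
    Pr_coprime hcop (fun p m => fun q : Option (Fin T × Fin h) => decide ((p : ℕ) ∣ m + pv q))
    (fun p m => by
      funext q
      simp only [decide_eq_decide]
      rw [Nat.dvd_iff_mod_eq_zero, Nat.dvd_iff_mod_eq_zero, Nat.mod_add_mod]) Ψ
    (fun m Y => by simp only [hΨ]; rw [← sv_mod])
  refine le_trans (le_of_eq e1) ?_
  set μ : Pr (t + 8) (i0 + L) → (Option (Fin T × Fin h) → Bool) → ℝ := fun p y =>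
    (#{m ∈ Finset.range p | (fun q : Option (Fin T × Fin h) => decide ((p : ℕ) ∣ m + pv q)) = y} : ℝ)
      / (p : ℕ) with hμ
  set ν : Pr (t + 8) (i0 + L) → (Option (Fin T × Fin h) → Bool) → ℝ := fun p y =>
    ∏ q, wt (t + 8) (i0 + L) p (y q) with hν
  have hμ1 : ∀ p, ∑ y, μ p y = 1 := by
    intro p
    have hp' : (0 : ℝ) < (p : ℕ) := by exact_mod_cast Pr_pos p
    simp only [hμ]
    rw [← Finset.sum_div, div_eq_one_iff_eq hp'.ne', ← Nat.cast_sum,
      ← Finset.card_eq_sum_card_fiberwise (fun _ _ => Finset.mem_univ _), Finset.card_range]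
  have hν1 : ∀ p, ∑ y, ν p y = 1 := fun p =>
    sum_weight (w := fun _ : Option (Fin T × Fin h) => wt (t + 8) (i0 + L) p) fun _ => wt_sum p
  have hν0 : ∀ p y, 0 < ν p y := fun p y => Finset.prod_pos fun q _ => wt_pos _ _
  have hE : (Fintype.card (Option (Fin T × Fin h)) : ℝ) = T * h + 1 := by simp
  have hh0 : (4 : ℝ) ≤ h := by linarith
  have hE2 : (T : ℝ) * h + 1 ≤ 2 * T * h := by nlinarith
  have hh2' : (h : ℝ) ^ 8 ≤ zz (t + 8) := by exact_mod_cast hh2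
  have hchi : (∏ p, ∑ y, μ p y ^ 2 / ν p y) - 1 ≤ 16 * T ^ 2 / h ^ 6 := by
    have b1 : ∏ p, ∑ y, μ p y ^ 2 / ν p y ≤
        ∏ p : Pr (t + 8) (i0 + L), (1 + 2 * (((T : ℝ) * h + 1) / ((p : ℕ) : ℝ)) ^ 2) := by
      refine Finset.prod_le_prod (fun p _ => Finset.sum_nonneg fun y _ =>
        div_nonneg (sq_nonneg _) (hν0 p y).le) fun p _ => ?_
      have h1 := mem_PI.1 p.2
      have h2 : 2 * (T * h + 1) ≤ h ^ 8 := by
        have : 4 ≤ h := by omega
        calc 2 * (T * h + 1) ≤ h ^ 2 := by nlinarith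
          _ ≤ _ := Nat.pow_le_pow_right (by omega) (by norm_num)
      rw [← hE]
      exact chi_one pv pv_inj p (fun q => by have := pv_le q; omega) (by simp; omega)
        h1.2.2.two_le
    have b2 := chi_prod ((T : ℝ) * h + 1) (t + 8) (i0 + L) (by omega)
    have b3 : 2 * ((T : ℝ) * h + 1) ^ 2 / zz (t + 8) ≤ 8 * T ^ 2 / h ^ 6 := by
      calc _ ≤ 2 * (2 * (T : ℝ) * h) ^ 2 / h ^ 8 := by gcongr
        _ = _ := by field_simp; ring
    have b4 : 8 * (T : ℝ) ^ 2 / h ^ 6 ≤ 1 := by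
      rw [div_le_one (by positivity)]
      calc _ ≤ (h : ℝ) ^ 2 := by nlinarith
        _ ≤ _ := pow_le_pow_right₀ (by linarith) (by norm_num)
    have b5 := Real.abs_exp_sub_one_le (x := 8 * (T : ℝ) ^ 2 / h ^ 6)
      (by rw [abs_of_nonneg (by positivity)]; exact b4)
    rw [abs_of_nonneg (a := 8 * (T : ℝ) ^ 2 / h ^ 6) (by positivity)] at b5
    have b6 := (abs_le.1 b5).2
    have b7 := Real.exp_le_exp.2 b3
    have b8 : 16 * (T : ℝ) ^ 2 / h ^ 6 = 2 * (8 * T ^ 2 / h ^ 6) := by ring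
    linarith
  have hEP : 0 ≤ Ex (wt (t + 8) (i0 + L)) (bet (i0 + L)) := Ex_nonneg wt_nonneg (bet_nonneg _)
  have hDd : 0 ≤ c1 * Dd := le_trans (mul_nonneg (mul_nonneg K1_pos.le
    (mul_nonneg (by positivity) (VV_nonneg _ _))) hEP) (M_EP ht hh3)
  set ε := 4 * Real.exp (Bx Dd L) / T + T * (c1 * Dd) / D with hε
  have hε0 : 0 ≤ ε := by positivity
  have hG1 : 1 ≤ G3 Dd L T := by
    unfold G3
    have d1 : 0 ≤ Bx Dd L := le_trans (mul_nonneg (mul_nonneg K1_pos.le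
      (mul_nonneg (by positivity) (VV_nonneg _ _))) eta_nonneg) (M_eta ht hh3)
    have d2 := c3_pos L
    have d3 := Real.exp_pos (Bx Dd L)
    refine one_le_mul_of_one_le_of_one_le (one_le_pow₀ ?_) (Real.one_le_exp (by positivity))
    nlinarith
  have key : ∀ m, Ex μ (Ψ m) ≤ sS t m * (Ex (wt (t + 8) (i0 + L)) (bet (i0 + L)) * ε) +
      4 * T * G3 Dd L T / h ^ 3 := by
    intro m
    have a1 := Ex_chi hμ1 hν1 hν0 (Ψ m)
    have a2 : Ex ν (Ψ m) ≤ sS t m * (Ex (wt (t + 8) (i0 + L)) (bet (i0 + L)) * ε) := by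
      rw [hν, hΨ, Ex_swap (wt (t + 8) (i0 + L))
        (Phi (pw (t + 8) (i0 + L)) (fk i0 L) (bet (i0 + L)) D (sv T h t m))]
      refine (Ex_Phi (pw_sum _ _) (pw_nonneg _ _) (bet_nonneg _) (by linarith) (sv_nonneg _ _ _ _)
        (by simpa using hT) (fun i => (win_mom h5 ht hh3 hh1 m i).1) (sum_win_le hh1 m)).trans ?_
      rw [pw_Ex, Fintype.card_fin, mul_assoc]
      have := M_EP ht hh3
      have h0 : 0 ≤ sS t m := sv_nonneg T h t m none
      change sS t m * _ ≤ _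
      rw [hε]
      gcongr
    have a3 : Ex ν (fun Y => Ψ m Y ^ 2) ≤ G3 Dd L T := by
      rw [hν, hΨ, Ex_swap (wt (t + 8) (i0 + L)) (fun X =>
        Phi (pw (t + 8) (i0 + L)) (fk i0 L) (bet (i0 + L)) D (sv T h t m) X ^ 2)]
      have d1 := Ex_YY (J := Option (Fin T × Fin h)) (γ := fun x => 60 * Gam i0 (i0 + L) x)
        (pw_sum (t + 8) (i0 + L)) (pw_nonneg _ _)
        (fun x => (bet_nonneg _ x).trans (bet_le_60 x)) (sv T h t m) (sv_01 _ _ _ _) 14
      refine le_trans (Ex_mono (w := fun _ => pw (t + 8) (i0 + L)) (fun _ => pw_nonneg _ _)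
        (g := fun X => (5 * (1 + Real.exp (Bx Dd L)) ^ 2) ^ 2 *
          YY (fun x => 60 * Gam i0 (i0 + L) x) (sv T h t m) X ^ 14) fun X => ?_) ?_
      · refine (pow_le_pow_left₀ (Phi_nonneg (bet_nonneg _) (by linarith) (sv_nonneg _ _ _ _) _)
          (Phi_le (γ := fun x => 60 * Gam i0 (i0 + L) x) (bet_nonneg _) bet_le_60
            (sum_abs_fk h5 ht) hD (sv_nonneg _ _ _ _) (by simpa using hT) (Real.exp_pos _).le
            (fun i => (win_mom h5 ht hh3 hh1 m i).2) X) 2).trans (le_of_eq ?_)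
        ring
      · rw [Ex_mul_left]
        unfold G3
        gcongr
        refine d1.trans (Real.exp_le_exp.2 ?_)
        have d2 : ∑ q, sv T h t m q ≤ 1 + T * (K1 * (h * VV 0 t)) := by
          rw [Fintype.sum_option, Fintype.sum_prod_type]
          refine add_le_add (by rcases sv_01 T h t m none with e | e <;> simp [e]) ?_
          simpa [win] using Finset.sum_le_card_nsmul Finset.univ _ _
            (fun i _ => sum_win_le hh1 m (T := T) i)
        have d3 := eta_le (L := L) ht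
        have d4 := M_eta ht hh3
        have d5 := eta_nonneg (i0 := i0) (L := L) (a := t + 8) (b := i0 + L)
        have d6 : VV (t + 8) (i0 + L) * c3 L ≤ c3 L :=
          mul_le_of_le_one_left (c3_pos L).le (VV_le_one _ _)
        refine (mul_le_mul_of_nonneg_right d2 d5).trans ?_
        rw [add_mul, one_mul, mul_assoc]
        gcongr
        linarith
    have a4 : (Ex μ (Ψ m) - Ex ν (Ψ m)) ^ 2 ≤ (4 * T * G3 Dd L T / h ^ 3) ^ 2 := by
      refine a1.trans ?_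
      calc _ ≤ Ex ν (fun Y => Ψ m Y ^ 2) * (16 * T ^ 2 / h ^ 6) :=
            mul_le_mul_of_nonneg_left hchi (Ex_nonneg (fun p y => (hν0 p y).le) fun _ => sq_nonneg _)
        _ ≤ G3 Dd L T ^ 2 * (16 * T ^ 2 / h ^ 6) := by
            gcongr
            nlinarith
        _ = _ := by ring
    have a5 := (abs_le_of_sq_le_sq' a4 (by positivity)).2
    linarith
  calc _ ≤ (∑ m ∈ Finset.range (QQ 0 t), (sS t m * (Ex (wt (t + 8) (i0 + L)) (bet (i0 + L)) * ε) +
        4 * T * G3 Dd L T / h ^ 3)) / (QQ 0 t : ℝ) := by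
        gcongr with m
        exact key m
    _ = VV 0 t * (Ex (wt (t + 8) (i0 + L)) (bet (i0 + L)) * ε) + 4 * T * G3 Dd L T / h ^ 3 := by
        rw [Finset.sum_add_distrib, ← Finset.sum_mul, ← sS_avg, Finset.sum_const, Finset.card_range,
          nsmul_eq_mul]
        field_simp
    _ ≤ _ := by
        gcongr
        have h1 := Ex_bet (a := t + 8) (b := i0 + L) (i := i0 + L) (by omega) le_rfl
        have h2 := VV_mul_le (t := t) (j := i0 + L) (by omega)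
        have := VV_nonneg 0 t
        calc _ ≤ VV 0 t * (VV (t + 8) (i0 + L) * Real.exp (kap 9) * ε) := by gcongr
          _ = VV 0 t * VV (t + 8) (i0 + L) * (Real.exp (kap 9) * ε) := by ring
          _ ≤ c0 / 2 ^ (i0 + L) * (Real.exp (kap 9) * ε) := by gcongr
          _ = _ := by ring

end core

end Crest.Agent.H1Gap
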