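import Crest.Agent.H1Gap.Window

set_option autoImplicit false
set_option linter.unusedSectionVars false

namespace Crest.Agent.H1Gap

open Finset

variable {Λ I J : Type*} [Fintype Λ] [Fintype I] [DecidableEq I] [Fintype J] [DecidableEq J] {L : ℕ}

/-- restriction to a window. -/
def win {α : Type*} (X : Option (I × J) → α) (i : I) : J → α := fun j => X (some (i, j))

noncomputable def ee (π : Λ → ℝ) (f : Fin L → Λ → ℝ) (P : Λ → ℝ) (s : J → ℝ) : ℝ :=
  Ex (fun _ : J => π) (uu f P s)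

noncomputable def Phi (π : Λ → ℝ) (f : Fin L → Λ → ℝ) (P : Λ → ℝ) (D : ℝ)
    (s : Option (I × J) → ℝ) (X : Option (I × J) → Λ) : ℝ :=
  s none * P (X none) * (4 * (1 / (Fintype.card I : ℝ) *
    ∑ i, (uu f P (win s i) (win X i) - ee π f P (win s i))) ^ 2 +
    1 / D * ∑ q : I × J, s (some q) * P (X (some q)))

variable {π : Λ → ℝ} {f : Fin L → Λ → ℝ} {P : Λ → ℝ} {D : ℝ}

lemma Phi_nonneg (hP : ∀ x, 0 ≤ P x) (hD : 0 < D) {s : Option (I × J) → ℝ} (hs0 : ∀ q, 0 ≤ s q)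
    (X : Option (I × J) → Λ) : 0 ≤ Phi π f P D s X := by
  unfold Phi
  have := Finset.sum_nonneg fun (q : I × J) (_ : q ∈ Finset.univ) =>
    mul_nonneg (hs0 (some q)) (hP (X (some q)))
  have := hs0 none
  have := hP (X none)
  positivity

lemma one_le_Phi_left (hP : ∀ x, 0 ≤ P x) (hD : 0 < D) {s : Option (I × J) → ℝ}
    (hs0 : ∀ q, 0 ≤ s q) (X : Option (I × J) → Λ) (hI : 0 < Fintype.card I) (h1 : s none = 1)
    (h2 : P (X none) = 1) (hu : ∀ i, uu f P (win s i) (win X i) ≤ 0)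
    (he : ∀ i, 1 / 2 ≤ ee π f P (win s i)) : 1 ≤ Phi π f P D s X := by
  unfold Phi
  have a1 := Finset.sum_nonneg fun (q : I × J) (_ : q ∈ Finset.univ) =>
    mul_nonneg (hs0 (some q)) (hP (X (some q)))
  have a2 : ∑ i, (uu f P (win s i) (win X i) - ee π f P (win s i)) ≤
      Fintype.card I * (-1 / 2) := by
    have := Finset.sum_le_card_nsmul Finset.univ
      (fun i => uu f P (win s i) (win X i) - ee π f P (win s i)) (-1 / 2)
      (fun i _ => by linarith [hu i, he i])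
    simpa using this
  have a3 : (0 : ℝ) < Fintype.card I := by exact_mod_cast hI
  have a4 : 1 / (Fintype.card I : ℝ) *
      ∑ i, (uu f P (win s i) (win X i) - ee π f P (win s i)) ≤ -1 / 2 := by
    rw [one_div_mul_eq_div, div_le_iff₀ a3]; linarith
  have a5 : 0 ≤ 1 / D * ∑ q : I × J, s (some q) * P (X (some q)) := by positivity
  rw [h1, h2]
  nlinarith

lemma one_le_Phi_right (hD : 0 < D) {s : Option (I × J) → ℝ}
    (X : Option (I × J) → Λ) (h1 : s none = 1)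
    (h2 : P (X none) = 1) (h3 : D ≤ ∑ q : I × J, s (some q) * P (X (some q))) :
    1 ≤ Phi π f P D s X := by
  unfold Phi
  have a5 : 1 ≤ 1 / D * ∑ q : I × J, s (some q) * P (X (some q)) := by
    rw [one_div_mul_eq_div, one_le_div hD]; exact h3
  rw [h1, h2]
  nlinarith [sq_nonneg (1 / (Fintype.card I : ℝ) *
    ∑ i, (uu f P (win s i) (win X i) - ee π f P (win s i)))]

lemma Ex_win (h1 : ∑ a, π a = 1) (i : I) (F : (J → Λ) → ℝ) :
    Ex (fun _ : Option (I × J) => π) (fun X => F (win X i)) = Ex (fun _ : J => π) F :=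
  Ex_comp h1 (fun j => some (i, j)) (fun _ _ h => by simpa using h) F

lemma Ex_var (h1 : ∑ a, π a = 1) (u : I → (J → Λ) → ℝ) {B : ℝ}
    (hB : ∀ i, Ex (fun _ : J => π) (fun x => u i x ^ 2) ≤ B) :
    Ex (fun _ : Option (I × J) => π)
      (fun X => (∑ i, (u i (win X i) - Ex (fun _ : J => π) (u i))) ^ 2) ≤ Fintype.card I * B := by
  simp only [sq, Finset.sum_mul_sum]
  rw [Ex_sum]
  have h0 : ∀ i, Ex (fun _ : Option (I × J) => π)
      (fun X => u i (win X i) - Ex (fun _ : J => π) (u i)) = 0 := by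
    intro i
    rw [Ex_sub, Ex_win h1, Ex_const (fun _ => h1), sub_self]
  have := Finset.sum_le_card_nsmul Finset.univ (fun i => Ex (fun _ : Option (I × J) => π)
    (fun X => ∑ i', (u i (win X i) - Ex (fun _ : J => π) (u i)) *
      (u i' (win X i') - Ex (fun _ : J => π) (u i')))) B ?_
  · simpa using this
  intro i _
  rw [Ex_sum, Finset.sum_eq_single i]
  · rw [Ex_win h1 i (fun x => (u i x - Ex (fun _ : J => π) (u i)) *
      (u i x - Ex (fun _ : J => π) (u i)))]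
    set e := Ex (fun _ : J => π) (u i) with he
    rw [Ex_congr _ (fun x => show (u i x - e) * (u i x - e) = (u i x ^ 2 - 2 * e * u i x) + e ^ 2
      by ring), Ex_add, Ex_sub, Ex_mul_left, Ex_const (fun _ => h1)]
    have := hB i
    change _ - 2 * e * e + _ ≤ _
    nlinarith [sq_nonneg e]
  · intro i' _ hi
    rw [Ex_indep (fun _ => h1) (fun q => ∃ j, q = some (i, j)), h0, zero_mul]
    · intro x y h
      rw [show win x i = win y i from funext fun j => h _ ⟨j, rfl⟩]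
    · intro x y h
      rw [show win x i' = win y i' from funext fun j => h _ (by
        rintro ⟨j', e⟩
        simp only [Option.some.injEq, Prod.mk.injEq] at e
        exact hi e.1)]
  · simp

lemma Ex_Phi (h1 : ∑ a, π a = 1) (h0 : ∀ a, 0 ≤ π a) (hP : ∀ x, 0 ≤ P x) (hD : 0 < D)
    {s : Option (I × J) → ℝ} (hs0 : ∀ q, 0 ≤ s q) (hI : 0 < Fintype.card I) {B M : ℝ}
    (hB : ∀ i, Ex (fun _ : J => π) (fun x => uu f P (win s i) x ^ 2) ≤ B)
    (hM : ∀ i, ∑ j, win s i j ≤ M) :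
    Ex (fun _ : Option (I × J) => π) (Phi π f P D s) ≤
      s none * (∑ a, π a * P a) * (4 * B / Fintype.card I +
        Fintype.card I * (M * ∑ a, π a * P a) / D) := by
  have a3 : (0 : ℝ) < Fintype.card I := by exact_mod_cast hI
  have hEP : 0 ≤ ∑ a, π a * P a := Finset.sum_nonneg fun a _ => mul_nonneg (h0 a) (hP a)
  unfold Phi
  rw [Ex_indep (fun _ => h1) (fun q => q = none), Ex_mul_left, Ex_coord (fun _ => h1)]
  · refine mul_le_mul_of_nonneg_left ?_ (mul_nonneg (hs0 _) hEP)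
    simp only [mul_pow]
    rw [Ex_add, Ex_mul_left, Ex_mul_left, Ex_mul_left, Ex_sum]
    simp only [Ex_mul_left, Ex_coord (w := fun _ : Option (I × J) => π) (fun _ => h1) _ P]
    have b1 := Ex_var h1 (fun i => uu f P (win s i)) hB
    have b2 : ∑ q : I × J, s (some q) ≤ Fintype.card I * M := by
      rw [Fintype.sum_prod_type]
      simpa [win] using Finset.sum_le_card_nsmul Finset.univ _ M (fun i _ => hM i)
    rw [← Finset.sum_mul]
    refine add_le_add ?_ ?_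
    · calc _ ≤ 4 * ((1 / (Fintype.card I : ℝ)) ^ 2 * (Fintype.card I * B)) := by
            gcongr; exact b1
        _ = _ := by field_simp
    · calc _ ≤ 1 / D * (Fintype.card I * M * ∑ a, π a * P a) := by gcongr
        _ = _ := by ring
  · intro x y h; simp only [h none rfl]
  · intro x y h
    have e : ∀ q, x (some q) = y (some q) := fun q => h _ (by simp)
    have e2 : ∀ i, win x i = win y i := fun i => funext fun j => e _
    simp only [e, e2]

lemma YY_win_le {γ : Λ → ℝ} (hγ : ∀ x, 0 ≤ γ x) {s : Option (I × J) → ℝ} (hs0 : ∀ q, 0 ≤ s q)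
    (X : Option (I × J) → Λ) (i : I) : YY γ (win s i) (win X i) ≤ YY γ s X := by
  have e : YY γ s X = (1 + s none * γ (X none)) * ∏ i, YY γ (win s i) (win X i) := by
    unfold YY
    rw [Fintype.prod_option, Fintype.prod_prod_type]
    rfl
  rw [e, ← Finset.mul_prod_erase Finset.univ _ (Finset.mem_univ i)]
  have h1 : ∀ i, 1 ≤ YY γ (win s i) (win X i) := fun i => one_le_YY hγ (fun j => hs0 _) _
  have h2 : 1 ≤ ∏ i' ∈ Finset.univ.erase i, YY γ (win s i') (win X i') :=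
    Finset.prod_induction _ (fun y => 1 ≤ y) (fun _ _ ha hb => one_le_mul_of_one_le_of_one_le ha hb)
      le_rfl fun j _ => h1 j
  have h3 : 1 ≤ 1 + s none * γ (X none) := le_add_of_nonneg_right (mul_nonneg (hs0 _) (hγ _))
  have h4 := h1 i
  calc _ ≤ YY γ (win s i) (win X i) * ∏ i' ∈ Finset.univ.erase i, YY γ (win s i') (win X i') :=
        le_mul_of_one_le_right (by linarith) h2
    _ ≤ _ := le_mul_of_one_le_left (by positivity) h3

lemma Phi_le {γ : Λ → ℝ} (hP : ∀ x, 0 ≤ P x) (hPγ : ∀ x, P x ≤ γ x)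
    (hγ : ∀ x, ∑ k, |f k x| ≤ γ x) (hD : 1 ≤ D) {s : Option (I × J) → ℝ} (hs0 : ∀ q, 0 ≤ s q)
    (hI : 0 < Fintype.card I) {B : ℝ} (hB0 : 0 ≤ B) (hB : ∀ i, |ee π f P (win s i)| ≤ B)
    (X : Option (I × J) → Λ) :
    Phi π f P D s X ≤ 5 * (1 + B) ^ 2 * YY γ s X ^ 7 := by
  have a3 : (0 : ℝ) < Fintype.card I := by exact_mod_cast hI
  have hγ0 : ∀ x, 0 ≤ γ x := fun x => (hP x).trans (hPγ x)
  have h1 := one_le_YY hγ0 hs0 X
  have h2 := sum_le_YY hP hPγ hs0 X
  rw [Fintype.sum_option] at h2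
  have a1 := Finset.sum_nonneg fun (q : I × J) (_ : q ∈ Finset.univ) =>
    mul_nonneg (hs0 (some q)) (hP (X (some q)))
  have a2 := mul_nonneg (hs0 none) (hP (X none))
  set Y := YY γ s X with hY
  have h3 : (1 : ℝ) ≤ Y ^ 3 := one_le_pow₀ h1
  have h4 : |1 / (Fintype.card I : ℝ) *
      ∑ i, (uu f P (win s i) (win X i) - ee π f P (win s i))| ≤ (1 + B) * Y ^ 3 := by
    rw [abs_mul, abs_of_nonneg (by positivity), one_div_mul_eq_div, div_le_iff₀ a3]
    refine (Finset.abs_sum_le_sum_abs _ _).trans ?_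
    have := Finset.sum_le_card_nsmul Finset.univ
      (fun i => |uu f P (win s i) (win X i) - ee π f P (win s i)|) ((1 + B) * Y ^ 3) (fun i _ => by
        have c1 := abs_uu_le f hP hPγ hγ (s := win s i) (fun j => hs0 _) (win X i)
        have c2 : YY γ (win s i) (win X i) ^ 3 ≤ Y ^ 3 :=
          pow_le_pow_left₀ (le_trans zero_le_one (one_le_YY hγ0 (fun j => hs0 _) _))
            (YY_win_le hγ0 hs0 X i) 3
        have c3 := abs_sub (uu f P (win s i) (win X i)) (ee π f P (win s i))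
        have c4 := hB i
        nlinarith)
    simpa [mul_comm] using this
  have h5 : (1 / (Fintype.card I : ℝ) *
      ∑ i, (uu f P (win s i) (win X i) - ee π f P (win s i))) ^ 2 ≤ ((1 + B) * Y ^ 3) ^ 2 := by
    rw [← sq_abs]; gcongr
  have h6 : 1 / D * ∑ q : I × J, s (some q) * P (X (some q)) ≤ ((1 + B) * Y ^ 3) ^ 2 := by
    have c1 : 1 / D ≤ 1 := by rw [div_le_one (by linarith)]; exact hD
    have c2 : Y ≤ Y ^ 3 := le_self_pow₀ h1 (by norm_num)
    have c3 : 1 ≤ (1 + B) * Y ^ 3 := by nlinarith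
    calc _ ≤ 1 * Y := by gcongr; linarith
      _ ≤ (1 + B) * Y ^ 3 := by nlinarith
      _ ≤ _ := le_self_pow₀ c3 (by norm_num)
  unfold Phi
  calc _ ≤ Y * (4 * ((1 + B) * Y ^ 3) ^ 2 + ((1 + B) * Y ^ 3) ^ 2) := by
        gcongr
        linarith
    _ = _ := by ring

lemma AP_Phi {Q : ℕ} (hL : 0 < L) (s : ℕ → Option (I × J) → ℝ) (X : ℕ → Option (I × J) → Λ)
    (υ : ℝ) (h3 : 3 ≤ υ) (hJ : (Fintype.card J : ℝ) * L ≤ υ) (hI : 0 < Fintype.card I)
    (hIυ : (Fintype.card I : ℝ) ≤ υ) (hD : 1 ≤ D)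
    (hf : ∀ q (k : Fin L), AP Q (υ ^ (2 ^ k.val)) (fun m => s m q * f k (X m q)))
    (hP : ∀ q, AP Q (υ ^ (2 ^ (L + 1))) (fun m => s m q * P (X m q)))
    (he : ∀ i, AP Q (υ ^ 2) (fun m => ee π f P (win (s m) i))) :
    AP Q (υ ^ (22 * 2 ^ (L + 1))) (fun m => Phi π f P D (s m) (X m)) := by
  have a3 : (0 : ℝ) < Fintype.card I := by exact_mod_cast hI
  have h1 := (AP.sum Finset.univ _ _ fun i _ => (AP_uu hL f P (fun m => win (s m) i)
    (fun m => win (X m) i) υ h3 hJ (fun j k => hf _ k) (fun j => hP _)).sub (he i)).smul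
    (1 / (Fintype.card I : ℝ))
  have h2 := (hP none).mul (((h1.mul h1).smul 4).add
    ((AP.sum Finset.univ _ _ fun (q : I × J) _ => hP (some q)).smul (1 / D)))
  refine (h2.mono ?_).congr fun m => by simp only [Phi, sq]
  have hB : 2 ≤ 2 ^ (L + 1) := by
    calc 2 = 2 ^ 1 := by norm_num
      _ ≤ _ := Nat.pow_le_pow_right (by norm_num) (by omega)
  set B := 2 ^ (L + 1)
  have h1υ : 1 ≤ υ := by linarith
  have hJ' : (Fintype.card J : ℝ) ≤ υ := by
    have : (1 : ℝ) ≤ L := by exact_mod_cast hL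
    have h0 : (0 : ℝ) ≤ Fintype.card J := by positivity
    nlinarith
  simp only [Finset.sum_const, Finset.card_univ, nsmul_eq_mul, Fintype.card_prod, Nat.cast_mul]
  have b1 : |1 / (Fintype.card I : ℝ)| * (Fintype.card I * (υ ^ (9 * B) + υ ^ 2)) ≤
      υ ^ (9 * B + 1) := by
    rw [abs_of_nonneg (by positivity), ← mul_assoc, one_div_mul_cancel a3.ne', one_mul,
      pow_succ υ (9 * B)]
    have : υ ^ 2 ≤ υ ^ (9 * B) := pow_le_pow_right₀ h1υ (by omega)
    have : 0 ≤ υ ^ (9 * B) := by positivity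
    nlinarith
  have b2 : |1 / D| * (Fintype.card I * Fintype.card J * υ ^ B) ≤ υ ^ (18 * B + 2) := by
    have c1 : |1 / D| ≤ 1 := by
      rw [abs_of_nonneg (by positivity), div_le_one (by linarith)]; exact hD
    calc _ ≤ 1 * (υ * υ * υ ^ B) := by gcongr
      _ = υ ^ (B + 2) := by ring
      _ ≤ _ := pow_le_pow_right₀ h1υ (by omega)
  have b3 : υ ^ (9 * B + 1) * υ ^ (9 * B + 1) = υ ^ (18 * B + 2) := by ring
  have b4 : (5 : ℝ) ≤ υ ^ 2 := by nlinarith
  calc _ ≤ υ ^ B * (|4| * (υ ^ (9 * B + 1) * υ ^ (9 * B + 1)) + υ ^ (18 * B + 2)) := by gcongr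
    _ = υ ^ B * (5 * υ ^ (18 * B + 2)) := by rw [b3, abs_of_nonneg (by norm_num)]; ring
    _ ≤ υ ^ B * (υ ^ 2 * υ ^ (18 * B + 2)) := by gcongr
    _ = υ ^ (19 * B + 4) := by ring
    _ ≤ _ := pow_le_pow_right₀ h1υ (by omega)

/-- moments of a window. -/
lemma Ex_uu_sq {γ : Λ → ℝ} (h1 : ∑ a, π a = 1) (h0 : ∀ a, 0 ≤ π a) (hP : ∀ x, 0 ≤ P x)
    (hPγ : ∀ x, P x ≤ γ x) (hγ : ∀ x, ∑ k, |f k x| ≤ γ x) {s : J → ℝ}
    (hs : ∀ j, s j = 0 ∨ s j = 1) {B : ℝ}
    (hB : (∑ j, s j) * ∑ a, π a * ((1 + γ a) ^ 14 - 1) ≤ B) :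
    Ex (fun _ : J => π) (fun x => uu f P s x ^ 2) ≤ Real.exp B ∧ |ee π f P s| ≤ Real.exp B := by
  have hγ0 : ∀ x, 0 ≤ γ x := fun x => (hP x).trans (hPγ x)
  have hs0 : ∀ j, 0 ≤ s j := fun j => by rcases hs j with h | h <;> simp [h]
  have h2 := (Ex_YY h1 h0 hγ0 s hs 14).trans (Real.exp_le_exp.2 hB)
  have h3 : ∀ x, |uu f P s x| ≤ YY γ s x ^ 14 := fun x =>
    (abs_uu_le f hP hPγ hγ hs0 x).trans (pow_le_pow_right₀ (one_le_YY hγ0 hs0 x) (by norm_num))
  refine ⟨le_trans (Ex_mono (fun _ => h0) fun x => ?_) h2, abs_le.2 ⟨?_, ?_⟩⟩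
  · calc _ = |uu f P s x| ^ 2 := (sq_abs _).symm
      _ ≤ (YY γ s x ^ 3) ^ 2 := pow_le_pow_left₀ (abs_nonneg _) (abs_uu_le f hP hPγ hγ hs0 x) 2
      _ = YY γ s x ^ 6 := by ring
      _ ≤ _ := pow_le_pow_right₀ (one_le_YY hγ0 hs0 x) (by norm_num)
  · have := Ex_mono (w := fun _ : J => π) (fun _ => h0)
      (f := fun x => -1 * YY γ s x ^ 14) (g := uu f P s) fun x => by linarith [(abs_le.1 (h3 x)).1]
    rw [Ex_mul_left] at this
    unfold ee
    linarith
  · exact le_trans (Ex_mono (fun _ => h0) fun x => (abs_le.1 (h3 x)).2) h2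

end Crest.Agent.H1Gap
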