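import Mathlib

set_option autoImplicit false

namespace Crest.Agent.H1Gap

open Finset

/-- primes in `(a, b]`. -/
def PI (a b : ℕ) : Finset ℕ := (Finset.Ioc a b).filter Nat.Prime

lemma mem_PI {a b p : ℕ} : p ∈ PI a b ↔ a < p ∧ p ≤ b ∧ p.Prime := by
  simp [PI, and_assoc]

lemma sum_PI_split (f : ℕ → ℝ) {a b c : ℕ} (hab : a ≤ b) (hbc : b ≤ c) :
    ∑ p ∈ PI a c, f p = ∑ p ∈ PI a b, f p + ∑ p ∈ PI b c, f p := by
  unfold PI
  simp only [Finset.sum_filter]
  rw [Finset.sum_Ioc_consecutive _ hab hbc]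

lemma prod_PI_split (f : ℕ → ℝ) {a b c : ℕ} (hab : a ≤ b) (hbc : b ≤ c) :
    ∏ p ∈ PI a c, f p = (∏ p ∈ PI a b, f p) * ∏ p ∈ PI b c, f p := by
  unfold PI
  simp only [Finset.prod_filter]
  rw [Finset.prod_Ioc_consecutive _ hab hbc]

lemma sum_PI_blocks (f : ℕ → ℝ) (u : ℕ → ℕ) (hu : Monotone u) (a b : ℕ) (hab : a ≤ b) :
    ∑ p ∈ PI (u a) (u b), f p = ∑ k ∈ Finset.Ico a b, ∑ p ∈ PI (u k) (u (k + 1)), f p := by
  induction b, hab using Nat.le_induction with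
  | base => simp [PI]
  | succ b hab ih =>
    rw [Finset.sum_Ico_succ_top hab, ← ih, sum_PI_split f (hu hab) (hu (Nat.le_succ b))]

lemma prod_PI_blocks (f : ℕ → ℝ) (u : ℕ → ℕ) (hu : Monotone u) (a b : ℕ) (hab : a ≤ b) :
    ∏ p ∈ PI (u a) (u b), f p = ∏ k ∈ Finset.Ico a b, ∏ p ∈ PI (u k) (u (k + 1)), f p := by
  induction b, hab using Nat.le_induction with
  | base => simp [PI]
  | succ b hab ih =>
    rw [Finset.prod_Ico_succ_top hab, ← ih, prod_PI_split f (hu hab) (hu (Nat.le_succ b))]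

lemma theta_nat (n : ℕ) : Chebyshev.theta n = ∑ p ∈ PI 0 n, Real.log p := by
  simp [Chebyshev.theta, PI]

lemma theta_diff {a b : ℕ} (hab : a ≤ b) :
    ∑ p ∈ PI a b, Real.log p = Chebyshev.theta b - Chebyshev.theta a := by
  rw [theta_nat, theta_nat, sum_PI_split _ (Nat.zero_le a) hab]
  ring

/-- the scales. -/
def zz (t : ℕ) : ℕ := 2 ^ (2 ^ t)

lemma zz_mono : Monotone zz := fun _ _ h =>
  Nat.pow_le_pow_right (by norm_num) (Nat.pow_le_pow_right (by norm_num) h)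

lemma zz_succ (t : ℕ) : zz (t + 1) = zz t ^ 2 := by
  unfold zz; rw [pow_succ, pow_mul]

lemma zz_add (t k : ℕ) : zz (t + k) = zz t ^ (2 ^ k) := by
  unfold zz; rw [pow_add, pow_mul]

lemma two_le_zz (t : ℕ) : 2 ≤ zz t := by
  have := zz_mono (Nat.zero_le t)
  simpa [zz] using this

noncomputable def sig (t : ℕ) : ℝ := ∑ p ∈ PI (zz t) (zz (t + 1)), (1 : ℝ) / p

noncomputable def VV (a b : ℕ) : ℝ := ∏ p ∈ PI (zz a) (zz b), (1 - (1 : ℝ) / p)

lemma sig_nonneg (t : ℕ) : 0 ≤ sig t := Finset.sum_nonneg fun _ _ => by positivity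

lemma sig_le (t : ℕ) : sig t ≤ 4 := by
  unfold sig zz
  have hn : 0 < 2 ^ t := by positivity
  rw [sum_PI_blocks _ (fun k => 2 ^ k) (fun a b h => Nat.pow_le_pow_right (by norm_num) h) _ _
    (Nat.pow_le_pow_right (by norm_num) (Nat.le_succ t))]
  have h1 : ∀ k ∈ Finset.Ico (2 ^ t) (2 ^ (t + 1)),
      ∑ p ∈ PI (2 ^ k) (2 ^ (k + 1)), (1 : ℝ) / p ≤ 4 / (2 ^ t : ℕ) := by
    intro k hk
    have hk1 := (Finset.mem_Ico.1 hk).1
    have hk0 : (0 : ℝ) < k := by exact_mod_cast lt_of_lt_of_le hn hk1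
    have hl2 : 0 < Real.log 2 := Real.log_pos (by norm_num)
    have a1 : ∑ p ∈ PI (2 ^ k) (2 ^ (k + 1)), (1 : ℝ) / p ≤
        ∑ p ∈ PI (2 ^ k) (2 ^ (k + 1)), Real.log p / (2 ^ k * (k * Real.log 2)) := by
      refine Finset.sum_le_sum fun p hp => ?_
      have hp1 : (2 : ℝ) ^ k ≤ p := by exact_mod_cast (mem_PI.1 hp).1.le
      have hp2 : k * Real.log 2 ≤ Real.log p := by
        rw [← Real.log_pow]; exact Real.log_le_log (by positivity) hp1
      rw [div_le_div_iff₀ (lt_of_lt_of_le (by positivity) hp1) (by positivity), one_mul, mul_comm]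
      exact mul_le_mul hp2 hp1 (by positivity) (le_trans (by positivity) hp2)
    rw [← Finset.sum_div, theta_diff (Nat.pow_le_pow_right (by norm_num) (Nat.le_succ k))] at a1
    have a2 := Chebyshev.theta_le_log4_mul_x (x := ((2 ^ (k + 1) : ℕ) : ℝ)) (by positivity)
    have a3 := Chebyshev.theta_nonneg ((2 ^ k : ℕ) : ℝ)
    have a4 : Real.log 4 = 2 * Real.log 2 := by
      rw [show (4 : ℝ) = 2 ^ 2 by norm_num, Real.log_pow]; norm_num
    refine a1.trans ?_
    calc _ ≤ (Real.log 4 * ((2 ^ (k + 1) : ℕ) : ℝ)) / (2 ^ k * (k * Real.log 2)) := by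
          gcongr; linarith
      _ = 4 / k := by rw [a4]; push_cast; field_simp; ring
      _ ≤ _ := by gcongr
  refine (Finset.sum_le_card_nsmul _ _ _ h1).trans ?_
  rw [Nat.card_Ico, nsmul_eq_mul, show 2 ^ (t + 1) - 2 ^ t = 2 ^ t by rw [pow_succ]; omega]
  have : (0 : ℝ) < (2 ^ t : ℕ) := by exact_mod_cast hn
  field_simp
  exact le_rfl

lemma theta_block (k : ℕ) (hk : 16 ≤ k) :
    (4 : ℝ) ^ k ≤ Chebyshev.theta ((4 ^ (k + 1) : ℕ) : ℝ) - Chebyshev.theta ((4 ^ k : ℕ) : ℝ) := by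
  have a1 := Chebyshev.theta_ge (4 ^ (k + 1))
  have a2 := Chebyshev.theta_le_log4_mul_x (x := ((4 ^ k : ℕ) : ℝ)) (by positivity)
  have a4 : Real.log 4 = 2 * Real.log 2 := by
    rw [show (4 : ℝ) = 2 ^ 2 by norm_num, Real.log_pow]; norm_num
  have hs : √((4 ^ (k + 1) : ℕ) : ℝ) = 2 ^ (k + 1) := by
    rw [Real.sqrt_eq_iff_mul_self_eq (by positivity) (by positivity), ← mul_pow]
    push_cast; norm_num
  have hl : Real.log ((4 ^ (k + 1) : ℕ) : ℝ) = (k + 1) * (2 * Real.log 2) := by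
    push_cast; rw [Real.log_pow, a4]; push_cast; ring
  have hl1 : Real.log (((4 ^ (k + 1) : ℕ) : ℝ) + 1) ≤ (k + 2) * (2 * Real.log 2) := by
    have : ((4 ^ (k + 1) : ℕ) : ℝ) + 1 ≤ 4 ^ (k + 2) := by
      push_cast
      have : (1 : ℝ) ≤ 4 ^ (k + 1) := one_le_pow₀ (by norm_num)
      rw [pow_succ _ (k + 1)]; linarith
    refine (Real.log_le_log (by positivity) this).trans (le_of_eq ?_)
    rw [Real.log_pow, a4]; push_cast; ring
  rw [hs, hl] at a1
  have b1 := Real.log_two_gt_d9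
  have b2 := Real.log_two_lt_d9
  have b3 : (k : ℝ) + 2 ≤ 2 ^ k / 64 := by
    have : 64 * (k + 2) ≤ 2 ^ k := by
      clear a1 a2 hs hl hl1
      induction k, hk using Nat.le_induction with
      | base => norm_num
      | succ k _ ih => rw [pow_succ]; omega
    rw [le_div_iff₀ (by norm_num)]
    exact_mod_cast (by linarith : (k + 2) * 64 ≤ 2 ^ k)
  have b4 : (4 : ℝ) ^ k = 2 ^ k * 2 ^ k := by rw [← mul_pow]; norm_num
  have b5 : (1 : ℝ) ≤ 2 ^ k := one_le_pow₀ (by norm_num)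
  push_cast at a1 a2 hl1 ⊢
  rw [a4] at a2
  rw [pow_succ (4 : ℝ) k, pow_succ (2 : ℝ) k] at a1
  rw [pow_succ (4 : ℝ) k] at hl1 ⊢
  set y : ℝ := 2 ^ k
  have c1 : ((k : ℝ) + 2) * (2 * Real.log 2) ≤ y / 64 * 2 := by
    have : (0 : ℝ) ≤ k := by positivity
    nlinarith
  have c2 : ((k : ℝ) + 1) * (2 * Real.log 2) ≤ y / 64 * 2 := by
    have : (0 : ℝ) ≤ k := by positivity
    nlinarith
  have c3 : 2 * (y * 2) * (((k : ℝ) + 1) * (2 * Real.log 2)) ≤ 2 * (y * 2) * (y / 64 * 2) := by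
    gcongr
  rw [b4] at a1 a2 hl1 ⊢
  have c4 : y ≤ y * y := by nlinarith
  nlinarith

lemma sig_ge (t : ℕ) (ht : 5 ≤ t) : 1 / 12 ≤ sig t := by
  obtain ⟨s, rfl⟩ : ∃ s, t = s + 1 := ⟨t - 1, by omega⟩
  have e1 : zz (s + 1) = 4 ^ (2 ^ s) := by
    unfold zz; rw [pow_succ', pow_mul]; norm_num
  have e2 : zz (s + 1 + 1) = 4 ^ (2 ^ (s + 1)) := by
    unfold zz; rw [pow_succ' 2 (s + 1), pow_mul]; norm_num
  unfold sig
  rw [e1, e2, sum_PI_blocks _ (fun k => 4 ^ k) (fun a b h => Nat.pow_le_pow_right (by norm_num) h)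
    _ _ (Nat.pow_le_pow_right (by norm_num) (Nat.le_succ s))]
  have hl2 := Real.log_two_lt_d9
  have hl0 : 0 < Real.log 2 := Real.log_pos (by norm_num)
  have h16 : 16 ≤ 2 ^ s := by
    calc 16 = 2 ^ 4 := by norm_num
      _ ≤ _ := Nat.pow_le_pow_right (by norm_num) (by omega)
  have h1 : ∀ k ∈ Finset.Ico (2 ^ s) (2 ^ (s + 1)),
      1 / (12 * ((2 ^ s : ℕ) : ℝ)) ≤ ∑ p ∈ PI (4 ^ k) (4 ^ (k + 1)), (1 : ℝ) / p := by
    intro k hk
    obtain ⟨hk1, hk2⟩ := Finset.mem_Ico.1 hk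
    have a4 : Real.log 4 = 2 * Real.log 2 := by
      rw [show (4 : ℝ) = 2 ^ 2 by norm_num, Real.log_pow]; norm_num
    have a1 : ∑ p ∈ PI (4 ^ k) (4 ^ (k + 1)), Real.log p / (4 ^ (k + 1) * ((k + 1) * Real.log 4)) ≤
        ∑ p ∈ PI (4 ^ k) (4 ^ (k + 1)), (1 : ℝ) / p := by
      refine Finset.sum_le_sum fun p hp => ?_
      have hp0 : (0 : ℝ) < p := by exact_mod_cast (mem_PI.1 hp).2.2.pos
      have hp1 : (p : ℝ) ≤ 4 ^ (k + 1) := by exact_mod_cast (mem_PI.1 hp).2.1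
      have hp2 : Real.log p ≤ (k + 1) * Real.log 4 := by
        have := Real.log_le_log hp0 hp1
        rw [Real.log_pow] at this
        exact_mod_cast this
      have : 0 < Real.log 4 := by linarith
      rw [div_le_div_iff₀ (by positivity) hp0, one_mul, mul_comm]
      exact mul_le_mul hp1 hp2 (Real.log_natCast_nonneg _) (by positivity)
    rw [← Finset.sum_div, theta_diff (Nat.pow_le_pow_right (by norm_num) (Nat.le_succ k))] at a1
    refine le_trans ?_ a1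
    have a2 := theta_block k (by omega)
    have a3 : ((k : ℝ) + 1) ≤ 2 * ((2 ^ s : ℕ) : ℝ) := by
      have : k + 1 ≤ 2 * 2 ^ s := by rw [pow_succ] at hk2; omega
      exact_mod_cast this
    have a5 : (0 : ℝ) < ((2 ^ s : ℕ) : ℝ) := by positivity
    calc 1 / (12 * ((2 ^ s : ℕ) : ℝ)) ≤ 1 / (4 * ((k + 1) * Real.log 4)) := by
          apply one_div_le_one_div_of_le
          · rw [a4]; positivity
          · rw [a4]; nlinarith
      _ = 4 ^ k / (4 ^ (k + 1) * ((k + 1) * Real.log 4)) := by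
          rw [a4]; field_simp; ring
      _ ≤ _ := by
          have : 0 < Real.log 4 := by linarith
          gcongr
  refine le_trans ?_ (Finset.card_nsmul_le_sum _ _ _ h1)
  rw [Nat.card_Ico, nsmul_eq_mul, show 2 ^ (s + 1) - 2 ^ s = 2 ^ s by rw [pow_succ]; omega]
  have : (0 : ℝ) < (2 ^ s : ℕ) := by positivity
  field_simp
  exact le_rfl

lemma one_sub_nonneg {a b p : ℕ} (hp : p ∈ PI a b) : 0 ≤ 1 - (1 : ℝ) / p := by
  have : (1 : ℝ) ≤ p := by exact_mod_cast (mem_PI.1 hp).2.2.one_le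
  rw [sub_nonneg, div_le_one (by linarith)]
  exact this

lemma VV_nonneg (a b : ℕ) : 0 ≤ VV a b := Finset.prod_nonneg fun _ hp => one_sub_nonneg hp

lemma VV_le_one (a b : ℕ) : VV a b ≤ 1 :=
  Finset.prod_le_one (fun _ hp => one_sub_nonneg hp) fun p _ => by
    have : (0 : ℝ) ≤ 1 / p := by positivity
    linarith

lemma VV_split {a b c : ℕ} (hab : a ≤ b) (hbc : b ≤ c) : VV a c = VV a b * VV b c :=
  prod_PI_split _ (zz_mono hab) (zz_mono hbc)

lemma VV_self (a : ℕ) : VV a a = 1 := by simp [VV, PI]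

lemma VV_step (t : ℕ) : Real.exp (-8) ≤ VV t (t + 1) := by
  have h1 : Real.exp (-8) ≤ Real.exp (∑ p ∈ PI (zz t) (zz (t + 1)), -2 * ((1 : ℝ) / p)) := by
    rw [Real.exp_le_exp, ← Finset.mul_sum]
    have := sig_le t
    unfold sig at this
    linarith
  refine h1.trans ?_
  rw [Real.exp_sum]
  refine Finset.prod_le_prod (fun _ _ => (Real.exp_pos _).le) fun p hp => ?_
  have hp2 : (2 : ℝ) ≤ p := by exact_mod_cast (mem_PI.1 hp).2.2.two_le
  have hx : (1 : ℝ) / p ≤ 1 / 2 := one_div_le_one_div_of_le (by norm_num) hp2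
  have hx0 : (0 : ℝ) ≤ 1 / p := by positivity
  set x : ℝ := 1 / p
  have h2 := Real.add_one_le_exp (2 * x)
  rw [show -2 * x = -(2 * x) by ring, Real.exp_neg, inv_le_iff_one_le_mul₀ (Real.exp_pos _)]
  nlinarith

lemma VV_ge (a k : ℕ) : Real.exp (-8 * k) ≤ VV a (a + k) := by
  induction k with
  | zero => simp [VV_self]
  | succ k ih =>
    rw [VV_split (Nat.le_add_right a k) (by omega : a + k ≤ a + (k + 1))]
    push_cast
    rw [show -8 * ((k : ℝ) + 1) = -8 * k + -8 by ring, Real.exp_add]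
    exact mul_le_mul ih (VV_step (a + k)) (Real.exp_pos _).le (VV_nonneg _ _)

lemma mertens_upper (n : ℕ) : Real.log n * ∏ p ∈ PI 0 n, (1 - (1 : ℝ) / p) ≤ 1 := by
  let f : ℕ →* ℝ :=
    { toFun := fun m => (m : ℝ)⁻¹
      map_one' := by simp
      map_mul' := fun a b => by push_cast; rw [mul_inv] }
  have h := (EulerProduct.summable_and_hasSum_smoothNumbers_prod_primesBelow_geometric (f := f)
    (fun {p} hp => by
      have : (1 : ℝ) < p := by exact_mod_cast hp.one_lt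
      simp only [f, MonoidHom.coe_mk, OneHom.coe_mk, norm_inv, Real.norm_natCast]
      exact inv_lt_one_of_one_lt₀ this) (n + 1)).2
  rw [show (fun m : (n + 1).smoothNumbers => f m) = f ∘ (↑) from rfl,
    hasSum_subtype_iff_indicator] at h
  have h2 := sum_le_hasSum (Finset.Icc 1 n) (fun m _ => Set.indicator_nonneg
    (fun m _ => by simp [f]) m) h
  have h3 : ∑ m ∈ Finset.Icc 1 n, Set.indicator (n + 1).smoothNumbers f m = harmonic n := by
    simp only [harmonic_eq_sum_Icc, Rat.cast_sum, Rat.cast_inv, Rat.cast_natCast]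
    refine Finset.sum_congr rfl fun m hm => ?_
    rw [Finset.mem_Icc] at hm
    rw [Set.indicator_of_mem (Nat.mem_smoothNumbers_of_lt (by omega) (by omega))]
    rfl
  have h4 := log_add_one_le_harmonic n
  have h5 : (n + 1).primesBelow = PI 0 n := by
    ext p
    rw [Nat.mem_primesBelow, mem_PI]
    constructor
    · rintro ⟨h1, h2⟩; exact ⟨h2.pos, by omega, h2⟩
    · rintro ⟨_, h1, h2⟩; exact ⟨by omega, h2⟩
  rw [h3, h5, Finset.prod_inv_distrib] at h2
  have h6 : Real.log n ≤ Real.log ((n + 1 : ℕ) : ℝ) := by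
    rcases Nat.eq_zero_or_pos n with rfl | hn
    · simp
    · exact Real.log_le_log (by exact_mod_cast hn) (by push_cast; linarith)
  have h7 : ∏ p ∈ PI 0 n, (1 - f p) = ∏ p ∈ PI 0 n, (1 - (1 : ℝ) / p) := by
    simp [f]
  rw [h7] at h2
  have h8 : 0 < ∏ p ∈ PI 0 n, (1 - (1 : ℝ) / p) := Finset.prod_pos fun p hp => by
    have : (1 : ℝ) < p := by exact_mod_cast (mem_PI.1 hp).2.2.one_lt
    rw [sub_pos, div_lt_one (by linarith)]
    exact this
  have h9 := (h6.trans h4).trans h2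
  rw [← le_div_iff₀ h8, one_div]
  exact h9

lemma VV_zero_le (i : ℕ) : VV 0 i ≤ 3 / 2 ^ i := by
  have h := mertens_upper (zz i)
  rw [prod_PI_split _ (Nat.zero_le (zz 0)) (zz_mono (Nat.zero_le i))] at h
  have h1 : PI 0 (zz 0) = {2} := by decide
  have h2 : Real.log (zz i : ℕ) = 2 ^ i * Real.log 2 := by
    unfold zz; push_cast; rw [Real.log_pow]; push_cast; ring
  rw [h1, h2, Finset.prod_singleton] at h
  change _ * (_ * VV 0 i) ≤ 1 at h
  have b1 := Real.log_two_gt_d9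
  have h3 := VV_nonneg 0 i
  rw [le_div_iff₀ (by positivity)]
  have h4 : 0 ≤ VV 0 i * 2 ^ i := by positivity
  norm_num at h
  nlinarith

end Crest.Agent.H1Gap
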