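import Crest.Agent.H1Gap.AP
import Crest.Agent.H1Gap.Primes

set_option autoImplicit false

namespace Crest.Agent.H1Gap

open Finset

abbrev Pr (a b : ℕ) := ↥(PI (zz a) (zz b))

abbrev Loc (a b : ℕ) := Pr a b → Bool

noncomputable def wt (a b : ℕ) : Pr a b → Bool → ℝ :=
  fun p y => if y then 1 / ((p : ℕ) : ℝ) else 1 - 1 / ((p : ℕ) : ℝ)

variable {a b : ℕ}

def om (t : ℕ) (x : Loc a b) : ℕ := #{p : Pr a b | (p : ℕ) ∈ PI (zz t) (zz (t + 1)) ∧ x p = true}

lemma wt_sum (p : Pr a b) : ∑ y, wt a b p y = 1 := by simp [wt]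

lemma wt_pos (p : Pr a b) (y : Bool) : 0 < wt a b p y := by
  have : (1 : ℝ) < (p : ℕ) := by exact_mod_cast (mem_PI.1 p.2).2.2.one_lt
  unfold wt
  split_ifs
  · positivity
  · rw [sub_pos, div_lt_one (by linarith)]; exact this

lemma wt_nonneg (p : Pr a b) (y : Bool) : 0 ≤ wt a b p y := (wt_pos p y).le

lemma filter_block {t : ℕ} (ha : a ≤ t) (hb : t < b) :
    (PI (zz a) (zz b)).filter (fun p => p ∈ PI (zz t) (zz (t + 1))) = PI (zz t) (zz (t + 1)) := by
  ext p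
  simp only [Finset.mem_filter, mem_PI]
  have h1 := zz_mono ha
  have h2 := zz_mono (Nat.succ_le_of_lt hb)
  constructor
  · exact fun h => h.2
  · exact fun h => ⟨⟨lt_of_le_of_lt h1 h.1, h.2.1.trans h2, h.2.2⟩, h⟩

lemma Ex_pow_om (c : ℝ) {t : ℕ} (ha : a ≤ t) (hb : t < b) :
    Ex (wt a b) (fun x => c ^ om t x) = ∏ p ∈ PI (zz t) (zz (t + 1)), (1 + (c - 1) * (1 / p)) := by
  have e : ∀ x : Loc a b, c ^ om t x =
      ∏ p : Pr a b, if (p : ℕ) ∈ PI (zz t) (zz (t + 1)) ∧ x p = true then c else 1 := by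
    intro x
    rw [Finset.prod_ite, Finset.prod_const, Finset.prod_const_one, mul_one]
    rfl
  rw [Ex_congr _ e, Ex_prod (wt a b)
    (fun p y => if (p : ℕ) ∈ PI (zz t) (zz (t + 1)) ∧ y = true then c else 1)]
  have e2 : ∀ p : Pr a b, ∑ y, wt a b p y *
      (if (p : ℕ) ∈ PI (zz t) (zz (t + 1)) ∧ y = true then c else 1) =
      if (p : ℕ) ∈ PI (zz t) (zz (t + 1)) then 1 + (c - 1) * (1 / ((p : ℕ) : ℝ)) else 1 := by
    intro p
    by_cases h : (p : ℕ) ∈ PI (zz t) (zz (t + 1))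
    · simp [wt, h]; ring
    · simp [wt, h]
  simp only [e2]
  rw [Finset.prod_coe_sort (PI (zz a) (zz b))
    (fun p : ℕ => if p ∈ PI (zz t) (zz (t + 1)) then 1 + (c - 1) * (1 / (p : ℝ)) else 1),
    ← Finset.prod_filter, filter_block ha hb]

lemma Ex_pow_om_le {c : ℝ} (hc : 1 ≤ c) {t : ℕ} (ha : a ≤ t) (hb : t < b) :
    Ex (wt a b) (fun x => c ^ om t x) ≤ Real.exp (4 * c) := by
  rw [Ex_pow_om c ha hb]
  calc _ ≤ ∏ p ∈ PI (zz t) (zz (t + 1)), Real.exp ((c - 1) * (1 / p)) := by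
        refine Finset.prod_le_prod (fun p _ => ?_) fun p _ => ?_
        · have : 0 ≤ (c - 1) * (1 / (p : ℝ)) := mul_nonneg (by linarith) (by positivity)
          linarith
        · linarith [Real.add_one_le_exp ((c - 1) * (1 / (p : ℝ)))]
    _ = Real.exp ((c - 1) * sig t) := by rw [← Real.exp_sum, sig, Finset.mul_sum]
    _ ≤ _ := by
        rw [Real.exp_le_exp]
        nlinarith [sig_le t, sig_nonneg t]

lemma Ex_zero_om {t : ℕ} (ha : a ≤ t) (hb : t < b) :
    Ex (wt a b) (fun x => (0 : ℝ) ^ om t x) = VV t (t + 1) := by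
  rw [Ex_pow_om 0 ha hb, VV]
  exact Finset.prod_congr rfl fun p _ => by ring

lemma om_eq_sum (t : ℕ) (x : Loc a b) : (om t x : ℝ) =
    ∑ p : Pr a b, if (p : ℕ) ∈ PI (zz t) (zz (t + 1)) then (if x p = true then 1 else 0) else 0 := by
  unfold om
  rw [← Finset.sum_boole]
  exact Finset.sum_congr rfl fun p _ => by
    by_cases h : (p : ℕ) ∈ PI (zz t) (zz (t + 1)) <;> simp [h]

lemma Ex_om {t : ℕ} (ha : a ≤ t) (hb : t < b) : Ex (wt a b) (fun x => (om t x : ℝ)) = sig t := by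
  rw [Ex_congr _ (om_eq_sum t), Ex_sum]
  have e2 : ∀ p : Pr a b, Ex (wt a b) (fun x =>
      if (p : ℕ) ∈ PI (zz t) (zz (t + 1)) then (if x p = true then 1 else 0) else 0) =
      if (p : ℕ) ∈ PI (zz t) (zz (t + 1)) then (1 / ((p : ℕ) : ℝ)) else 0 := by
    intro p
    rw [Ex_coord wt_sum p (fun y =>
      if (p : ℕ) ∈ PI (zz t) (zz (t + 1)) then (if y = true then 1 else 0) else 0)]
    by_cases h : (p : ℕ) ∈ PI (zz t) (zz (t + 1)) <;> simp [wt, h]
  simp only [e2]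
  rw [Finset.sum_coe_sort (PI (zz a) (zz b))
    (fun p : ℕ => if p ∈ PI (zz t) (zz (t + 1)) then (1 / (p : ℝ)) else 0),
    ← Finset.sum_filter, filter_block ha hb, sig]

/-- `F` depends only on the scales below `t`. -/
def Dep (t : ℕ) (F : Loc a b → ℝ) : Prop := ∀ x y, (∀ u < t, om u x = om u y) → F x = F y

lemma om_congr {t : ℕ} {x y : Loc a b}
    (h : ∀ p : Pr a b, (p : ℕ) ∈ PI (zz t) (zz (t + 1)) → x p = y p) : om t x = om t y := by
  unfold om
  congr 1
  refine Finset.filter_congr fun p _ => ?_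
  exact and_congr_right fun hp => by rw [h p hp]

lemma Ex_dep {t : ℕ} {F : Loc a b → ℝ} (hF : Dep t F) (g : ℕ → ℝ) :
    Ex (wt a b) (fun x => F x * g (om t x)) =
      Ex (wt a b) F * Ex (wt a b) (fun x => g (om t x)) := by
  refine Ex_indep wt_sum (fun p : Pr a b => (p : ℕ) ≤ zz t) F _ ?_ ?_
  · intro x y h
    refine hF x y fun u hu => om_congr fun p hp => h p ?_
    exact (mem_PI.1 hp).2.1.trans (zz_mono hu)
  · intro x y h
    rw [om_congr fun p hp => h p (not_le.2 (mem_PI.1 hp).1)]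

lemma Dep_prod (c t : ℕ) (g : ℕ → ℕ → ℝ) :
    Dep t (fun x : Loc a b => ∏ u ∈ Finset.Ico c t, g u (om u x)) :=
  fun _ _ h => Finset.prod_congr rfl fun u hu => by rw [h u (Finset.mem_Ico.1 hu).2]

lemma Ex_prod_blocks (c t : ℕ) (hct : c ≤ t) (g : ℕ → ℕ → ℝ) :
    Ex (wt a b) (fun x => ∏ u ∈ Finset.Ico c t, g u (om u x)) =
      ∏ u ∈ Finset.Ico c t, Ex (wt a b) (fun x => g u (om u x)) := by
  induction t, hct using Nat.le_induction with
  | base => simp [Ex_const wt_sum]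
  | succ t hct ih =>
    simp only [Finset.prod_Ico_succ_top hct]
    rw [Ex_dep (Dep_prod c t g), ih]

/-- majorant of the local sieve factor. -/
noncomputable def Bm (c : ℝ) (r n : ℕ) : ℝ := if n = 0 then 1 else if r < n then c ^ n else 0

lemma Bm_nonneg {c : ℝ} (hc : 0 ≤ c) (r n : ℕ) : 0 ≤ Bm c r n := by
  unfold Bm; split_ifs <;> positivity

lemma Bm_anti {c : ℝ} (hc : 0 ≤ c) {r r' : ℕ} (h : r' ≤ r) (n : ℕ) : Bm c r n ≤ Bm c r' n := by
  unfold Bm
  split_ifs with h1 h2 h3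
  · exact le_rfl
  · exact le_rfl
  · omega
  · positivity
  · exact le_rfl

lemma Bm_zero (c : ℝ) (n : ℕ) : Bm c 0 n = c ^ n := by
  unfold Bm
  split_ifs with h1 h2
  · simp [h1]
  · rfl
  · omega

lemma Bm_pow (c : ℝ) (r n : ℕ) {k : ℕ} (hk : k ≠ 0) : Bm c r n ^ k = Bm (c ^ k) r n := by
  unfold Bm
  split_ifs
  · simp
  · rw [← pow_mul, ← pow_mul, mul_comm]
  · simp [hk]

lemma Bm_cases {c : ℝ} (hc : 1 ≤ c) (r n : ℕ) : Bm c r n = 0 ∨ 1 ≤ Bm c r n := by
  unfold Bm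
  split_ifs
  · exact Or.inr le_rfl
  · exact Or.inr (one_le_pow₀ hc)
  · exact Or.inl rfl

lemma Bm_le {c : ℝ} (hc : 0 ≤ c) (r n : ℕ) : Bm c r n ≤ 0 ^ n + (1 / 2) ^ r * (2 * c) ^ n := by
  unfold Bm
  split_ifs with h1 h2
  · subst h1
    have : (0 : ℝ) ≤ (1 / 2) ^ r := by positivity
    simp only [pow_zero]
    linarith
  · rw [zero_pow h1, zero_add, mul_pow, ← mul_assoc]
    refine le_mul_of_one_le_left (by positivity) ?_
    rw [one_div, inv_pow, ← div_eq_inv_mul, one_le_div (by positivity)]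
    exact pow_le_pow_right₀ (by norm_num) h2.le
  · positivity

/-- the constant in the moment bound. -/
noncomputable def kap (c : ℝ) : ℝ := Real.exp (8 * c + 8)

lemma Ex_Bm {c : ℝ} (hc : 1 ≤ c) (r : ℕ) {t : ℕ} (ha : a ≤ t) (hb : t < b) :
    Ex (wt a b) (fun x => Bm c r (om t x)) ≤ VV t (t + 1) * Real.exp (kap c * (1 / 2) ^ r) := by
  refine (Ex_mono wt_nonneg fun x => Bm_le (by linarith) r (om t x)).trans ?_
  rw [Ex_add, Ex_mul_left, Ex_zero_om ha hb]
  have h1 := Ex_pow_om_le (c := 2 * c) (by linarith) ha hb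
  have h2 := VV_step t
  have h3 := Real.add_one_le_exp (kap c * (1 / 2) ^ r)
  have h4 : Real.exp (4 * (2 * c)) = Real.exp (-8) * kap c := by
    rw [kap, ← Real.exp_add]; congr 1; ring
  have h5 : (0 : ℝ) ≤ (1 / 2) ^ r := by positivity
  have h6 : 0 ≤ kap c := (Real.exp_pos _).le
  calc _ ≤ VV t (t + 1) + (1 / 2) ^ r * (VV t (t + 1) * kap c) := by
        gcongr
        exact h1.trans (h4 ▸ mul_le_mul_of_nonneg_right h2 h6)
    _ = VV t (t + 1) * (kap c * (1 / 2) ^ r + 1) := by ring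
    _ ≤ _ := mul_le_mul_of_nonneg_left h3 (VV_nonneg _ _)

lemma sum_half (c i t : ℕ) (hct : c ≤ t) :
    ∑ u ∈ Finset.Ico c t, (1 / 2 : ℝ) ^ (i - u) ≤ (1 / 2) ^ (i - t) + ((t - i : ℕ) : ℝ) := by
  induction t, hct using Nat.le_induction with
  | base => simp only [Finset.Ico_self, Finset.sum_empty]; positivity
  | succ t hct ih =>
    rw [Finset.sum_Ico_succ_top hct]
    rcases lt_or_ge t i with h | h
    · rw [show i - t = i - (t + 1) + 1 by omega, pow_succ] at ih ⊢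
      rw [show t - i = 0 by omega] at ih
      rw [show t + 1 - i = 0 by omega]
      linarith
    · rw [show i - t = 0 by omega] at ih ⊢
      rw [show i - (t + 1) = 0 by omega, show t + 1 - i = t - i + 1 by omega]
      push_cast
      simp only [pow_zero] at ih ⊢
      linarith

/-- the moment bound. -/
lemma Ex_prod_Bm {c : ℝ} (hc : 1 ≤ c) (i : ℕ) {t : ℕ} (ha : a ≤ t) (hb : t ≤ b) :
    Ex (wt a b) (fun x => ∏ u ∈ Finset.Ico a t, Bm c (i - u) (om u x)) ≤
      VV a t * Real.exp (kap c * (1 + ((t - i : ℕ) : ℝ))) := by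
  rw [Ex_prod_blocks a t ha (fun u n => Bm c (i - u) n)]
  calc _ ≤ ∏ u ∈ Finset.Ico a t, (VV u (u + 1) * Real.exp (kap c * (1 / 2) ^ (i - u))) := by
        refine Finset.prod_le_prod (fun u _ => Ex_nonneg wt_nonneg fun x =>
          Bm_nonneg (by linarith) _ _) fun u hu => ?_
        exact Ex_Bm hc _ (Finset.mem_Ico.1 hu).1 (lt_of_lt_of_le (Finset.mem_Ico.1 hu).2 hb)
    _ = VV a t * Real.exp (kap c * ∑ u ∈ Finset.Ico a t, (1 / 2 : ℝ) ^ (i - u)) := by
        rw [Finset.prod_mul_distrib, ← Real.exp_sum, Finset.mul_sum]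
        congr 1
        exact (prod_PI_blocks _ zz zz_mono a t ha).symm
    _ ≤ _ := by
        have h1 := sum_half a i t ha
        have h2 : (1 / 2 : ℝ) ^ (i - t) ≤ 1 := pow_le_one₀ (by norm_num) (by norm_num)
        have h6 : 0 ≤ kap c := (Real.exp_pos _).le
        gcongr
        · exact VV_nonneg _ _
        · linarith

/-- the local sieve factor. -/
noncomputable def Bs (r : ℕ) (y : ℝ) : ℝ := (∏ j ∈ Finset.range r, (1 - 1 / ((j : ℝ) + 1) * y)) ^ 2

lemma Bs_nonneg (r : ℕ) (y : ℝ) : 0 ≤ Bs r y := sq_nonneg _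

lemma Bs_zero (r : ℕ) : Bs r 0 = 1 := by simp [Bs]

lemma Bs_le (r n : ℕ) : Bs r n ≤ Bm 9 r n := by
  unfold Bm
  split_ifs with h1 h2
  · simp [h1, Bs_zero]
  · unfold Bs
    have e : ∏ j ∈ Finset.range r, ((n : ℝ) / ((j : ℝ) + 1)) = (n : ℝ) ^ r / (r.factorial : ℝ) := by
      rw [Finset.prod_div_distrib, Finset.prod_const, Finset.card_range,
        ← Finset.prod_range_add_one_eq_factorial]
      push_cast
      rfl
    have h3 : |∏ j ∈ Finset.range r, (1 - 1 / ((j : ℝ) + 1) * n)| ≤ 3 ^ n := by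
      rw [Finset.abs_prod]
      calc _ ≤ ∏ j ∈ Finset.range r, ((n : ℝ) / ((j : ℝ) + 1)) := by
            refine Finset.prod_le_prod (fun _ _ => abs_nonneg _) fun j hj => ?_
            have hj' : (j : ℝ) + 1 ≤ n := by
              have := Finset.mem_range.1 hj
              exact_mod_cast (by omega : j + 1 ≤ n)
            have : 1 ≤ (n : ℝ) / ((j : ℝ) + 1) := by
              rw [one_le_div (by positivity)]; exact hj'
            rw [one_div_mul_eq_div, abs_le]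
            constructor <;> linarith
        _ ≤ Real.exp n := by rw [e]; exact Real.pow_div_factorial_le_exp _ (by positivity) r
        _ = Real.exp 1 ^ n := by rw [← Real.exp_nat_mul, mul_one]
        _ ≤ 3 ^ n := by gcongr; linarith [Real.exp_one_lt_d9]
    calc _ = |∏ j ∈ Finset.range r, (1 - 1 / ((j : ℝ) + 1) * n)| ^ 2 := (sq_abs _).symm
      _ ≤ (3 ^ n) ^ 2 := by gcongr
      _ = 9 ^ n := by rw [← pow_mul, mul_comm, pow_mul]; norm_num
  · unfold Bs
    obtain ⟨k, rfl⟩ : ∃ k, n = k + 1 := ⟨n - 1, by omega⟩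
    rw [Finset.prod_eq_zero (i := k) (Finset.mem_range.2 (by omega))]
    · simp
    · push_cast; field_simp; ring

/-- the upper bound sieve on the scales in `[a, i)`. -/
noncomputable def bet (i : ℕ) (x : Loc a b) : ℝ := ∏ u ∈ Finset.Ico a i, Bs (i - u) (om u x)

lemma bet_nonneg (i : ℕ) (x : Loc a b) : 0 ≤ bet i x := Finset.prod_nonneg fun _ _ => Bs_nonneg _ _

lemma om_false (t : ℕ) : om t (fun _ => false : Loc a b) = 0 := by simp [om]

lemma bet_false (i : ℕ) : bet i (fun _ => false : Loc a b) = 1 := by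
  simp [bet, om_false, Bs_zero]

lemma Dep_bet (i : ℕ) : Dep i (bet i : Loc a b → ℝ) := Dep_prod a i (fun u n => Bs (i - u) n)

lemma bet_le (i : ℕ) (x : Loc a b) : bet i x ≤ ∏ u ∈ Finset.Ico a i, Bm 9 (i - u) (om u x) :=
  Finset.prod_le_prod (fun _ _ => Bs_nonneg _ _) fun _ _ => Bs_le _ _

lemma Ex_bet {i : ℕ} (ha : a ≤ i) (hb : i ≤ b) :
    Ex (wt a b) (bet i) ≤ VV a i * Real.exp (kap 9) := by
  have := Ex_prod_Bm (c := 9) (by norm_num) i ha hb
  simp only [Nat.sub_self, Nat.cast_zero, add_zero, mul_one] at this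
  exact (Ex_mono wt_nonneg (bet_le i)).trans this

lemma Ex_bet_sq {i : ℕ} (ha : a ≤ i) (hb : i ≤ b) :
    Ex (wt a b) (fun x => bet i x ^ 2) ≤ VV a i * Real.exp (kap 81) := by
  have := Ex_prod_Bm (c := 81) (by norm_num) i ha hb
  simp only [Nat.sub_self, Nat.cast_zero, add_zero, mul_one] at this
  refine (Ex_mono wt_nonneg fun x => ?_).trans this
  calc _ ≤ (∏ u ∈ Finset.Ico a i, Bm 9 (i - u) (om u x)) ^ 2 :=
        pow_le_pow_left₀ (bet_nonneg i x) (bet_le i x) 2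
    _ = _ := by
        rw [← Finset.prod_pow]
        exact Finset.prod_congr rfl fun u _ => by rw [Bm_pow _ _ _ two_ne_zero]; norm_num

/-- the atoms. -/
noncomputable def fk (i0 L : ℕ) (k : Fin L) (x : Loc a b) : ℝ :=
  bet (i0 + k) x * (1 / (L * sig (i0 + k)) * ((om (i0 + k) x : ℝ) - sig (i0 + k)))

lemma fk_false {i0 L : ℕ} (h5 : 5 ≤ i0) (k : Fin L) :
    fk i0 L k (fun _ => false : Loc a b) = -1 / L := by
  have h1 := sig_ge (i0 + k) (by omega)
  have h2 : (0 : ℝ) < L := by exact_mod_cast k.pos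
  have h3 : sig (i0 + k) ≠ 0 := by linarith [h1] |> ne_of_gt (a := sig (i0 + k))
  simp only [fk, bet_false, om_false]
  field_simp
  simp

lemma Ex_center {t : ℕ} (ha : a ≤ t) (hb : t < b) (c : ℝ) :
    Ex (wt a b) (fun x => c * ((om t x : ℝ) - sig t)) = 0 := by
  rw [Ex_mul_left, Ex_sub, Ex_om ha hb, Ex_const wt_sum, sub_self, mul_zero]

lemma Ex_fk {i0 L : ℕ} (ha : a ≤ i0) (hb : i0 + L ≤ b) (k : Fin L) :
    Ex (wt a b) (fk i0 L k) = 0 := by
  have := k.isLt
  unfold fk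
  rw [Ex_dep (Dep_bet _) (fun n => 1 / (L * sig (i0 + k)) * ((n : ℝ) - sig (i0 + k))),
    Ex_center (by omega) (by omega), mul_zero]

lemma Ex_fk_mul {i0 L : ℕ} (ha : a ≤ i0) (hb : i0 + L ≤ b) {k k' : Fin L} (h : k < k') :
    Ex (wt a b) (fun x => fk i0 L k x * fk i0 L k' x) = 0 := by
  have := k'.isLt
  have h' : k.val < k'.val := h
  have hd : Dep (i0 + k') (fun x : Loc a b => fk i0 L k x * bet (i0 + k') x) := by
    intro x y hxy
    simp only [fk]
    rw [Dep_bet _ x y hxy, Dep_bet (i0 + k) x y (fun u hu => hxy u (by omega)),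
      hxy (i0 + k) (by omega)]
  have := Ex_dep hd (fun n => 1 / (L * sig (i0 + k')) * ((n : ℝ) - sig (i0 + k')))
  rw [Ex_center (by omega) (by omega), mul_zero] at this
  rw [← this]
  exact Ex_congr _ fun x => by simp only [fk]; ring

lemma abs_center {t L : ℕ} (h5 : 5 ≤ t) (hL : 0 < L) (n : ℕ) :
    |1 / (L * sig t) * ((n : ℝ) - sig t)| ≤ 60 / L * 2 ^ n := by
  have h1 := sig_ge t h5
  have h2 : (0 : ℝ) < L := by exact_mod_cast hL
  have h3 := sig_le t
  have h4 : (n : ℝ) ≤ 2 ^ n := by exact_mod_cast (Nat.lt_two_pow_self).le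
  have h6 : (1 : ℝ) ≤ 2 ^ n := one_le_pow₀ (by norm_num)
  have h7 : (0 : ℝ) ≤ n := by positivity
  rw [abs_mul, abs_of_nonneg (by positivity)]
  have h8 : |(n : ℝ) - sig t| ≤ 5 * 2 ^ n := by
    rw [abs_le]; constructor <;> linarith
  have h9 : 1 / (L * sig t) ≤ 12 / L := by
    rw [div_le_div_iff₀ (by positivity) h2]; nlinarith
  calc _ ≤ 12 / (L : ℝ) * (5 * 2 ^ n) := by gcongr
    _ = _ := by ring

lemma Ex_fk_sq {i0 L : ℕ} (h5 : 5 ≤ i0) (ha : a ≤ i0) (hb : i0 + L ≤ b) (k : Fin L) :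
    Ex (wt a b) (fun x => fk i0 L k x * fk i0 L k x) ≤
      VV a (i0 + k) * (Real.exp (kap 81) * (3600 * Real.exp 16)) / L ^ 2 := by
  have := k.isLt
  have hd : Dep (i0 + k) (fun x : Loc a b => bet (i0 + k) x ^ 2) := by
    intro x y hxy
    simp only [Dep_bet _ x y hxy]
  have e := Ex_dep hd (fun n => (1 / (L * sig (i0 + k)) * ((n : ℝ) - sig (i0 + k))) ^ 2)
  rw [Ex_congr _ (fun x => show fk i0 L k x * fk i0 L k x = bet (i0 + k) x ^ 2 *
    (1 / (L * sig (i0 + k)) * ((om (i0 + k) x : ℝ) - sig (i0 + k))) ^ 2 by simp only [fk]; ring), e]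
  have h1 := Ex_bet_sq (a := a) (b := b) (i := i0 + k) (by omega) (by omega)
  have h2 : Ex (wt a b) (fun x => (1 / (L * sig (i0 + k)) *
      ((om (i0 + k) x : ℝ) - sig (i0 + k))) ^ 2) ≤ (60 / L) ^ 2 * Real.exp 16 := by
    have h3 := Ex_pow_om_le (a := a) (b := b) (c := 4) (t := i0 + k) (by norm_num) (by omega)
      (by omega)
    refine le_trans (Ex_mono wt_nonneg (g := fun x => (60 / L) ^ 2 * 4 ^ om (i0 + k) x)
      fun x => ?_) ?_
    · rw [← sq_abs]
      refine (pow_le_pow_left₀ (abs_nonneg _) (abs_center (by omega) k.pos _) 2).trans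
        (le_of_eq ?_)
      rw [mul_pow, ← pow_mul, mul_comm _ 2, pow_mul]; norm_num
    · rw [Ex_mul_left]
      norm_num at h3
      gcongr
  calc _ ≤ (VV a (i0 + k) * Real.exp (kap 81)) * ((60 / L) ^ 2 * Real.exp 16) :=
        mul_le_mul h1 h2 (Ex_nonneg wt_nonneg fun x => sq_nonneg _)
          (mul_nonneg (VV_nonneg _ _) (Real.exp_pos _).le)
    _ = _ := by ring

/-- the majorant of the atoms. -/
noncomputable def Gam (i0 t : ℕ) (x : Loc a b) : ℝ := ∏ u ∈ Finset.Ico a t, Bm 9 (i0 - u) (om u x)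

lemma Gam_nonneg (i0 t : ℕ) (x : Loc a b) : 0 ≤ Gam i0 t x :=
  Finset.prod_nonneg fun _ _ => Bm_nonneg (by norm_num) _ _

lemma bet_le_Gam {i0 t : ℕ} (h : i0 ≤ t) (x : Loc a b) : bet t x ≤ Gam i0 t x :=
  (bet_le t x).trans (Finset.prod_le_prod (fun _ _ => Bm_nonneg (by norm_num) _ _)
    fun _ _ => Bm_anti (by norm_num) (by omega) _)

lemma Gam_succ {i0 t : ℕ} (ha : a ≤ i0) (h : i0 ≤ t) (x : Loc a b) :
    Gam i0 (t + 1) x = Gam i0 t x * 9 ^ om t x := by
  unfold Gam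
  rw [Finset.prod_Ico_succ_top (ha.trans h), show i0 - t = 0 by omega, Bm_zero]

lemma Gam_mono {i0 t t' : ℕ} (ha : a ≤ i0) (h : i0 ≤ t) (h' : t ≤ t') (x : Loc a b) :
    Gam i0 t x ≤ Gam i0 t' x := by
  induction t', h' using Nat.le_induction with
  | base => exact le_rfl
  | succ t' h' ih =>
    rw [Gam_succ ha (h.trans h')]
    exact ih.trans (le_mul_of_one_le_right (Gam_nonneg _ _ _) (one_le_pow₀ (by norm_num)))

lemma sum_abs_fk {i0 L : ℕ} (h5 : 5 ≤ i0) (ha : a ≤ i0) (x : Loc a b) :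
    ∑ k : Fin L, |fk i0 L k x| ≤ 60 * Gam i0 (i0 + L) x := by
  have h1 : ∀ k : Fin L, |fk i0 L k x| ≤ 60 / L * Gam i0 (i0 + L) x := by
    intro k
    have := k.isLt
    unfold fk
    rw [abs_mul, abs_of_nonneg (bet_nonneg _ _)]
    calc _ ≤ Gam i0 (i0 + k) x * (60 / L * 9 ^ om (i0 + k) x) := by
          refine mul_le_mul (bet_le_Gam (by omega) x) ((abs_center (by omega) k.pos _).trans ?_)
            (abs_nonneg _) (Gam_nonneg _ _ _)
          gcongr; norm_num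
      _ = 60 / L * Gam i0 (i0 + k + 1) x := by rw [Gam_succ ha (by omega)]; ring
      _ ≤ _ := by
          gcongr
          exact Gam_mono ha (by omega) (by omega) x
  refine (Finset.sum_le_sum fun k _ => h1 k).trans ?_
  rw [Finset.sum_const, Finset.card_univ, Fintype.card_fin, nsmul_eq_mul]
  rcases Nat.eq_zero_or_pos L with rfl | hL
  · simpa using Gam_nonneg _ _ _
  · have : (0 : ℝ) < L := by exact_mod_cast hL
    exact le_of_eq (by field_simp)

lemma Gam_cases (i0 t : ℕ) (x : Loc a b) : Gam i0 t x = 0 ∨ 1 ≤ Gam i0 t x := by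
  refine Finset.prod_induction _ (fun y => y = 0 ∨ 1 ≤ y) ?_ (Or.inr le_rfl)
    fun u _ => Bm_cases (by norm_num) _ _
  rintro y z (rfl | hy) (rfl | hz)
  · simp
  · simp
  · simp
  · exact Or.inr (one_le_mul_of_one_le_of_one_le hy hz)

lemma Ex_Gam {i0 L : ℕ} (ha : a ≤ i0) (hb : i0 + L ≤ b) :
    Ex (wt a b) (fun x => (1 + 60 * Gam i0 (i0 + L) x) ^ 14 - 1) ≤
      VV a (i0 + L) * (61 ^ 14 * Real.exp (kap (9 ^ 14) * (1 + L))) := by
  have h1 := Ex_prod_Bm (a := a) (b := b) (c := 9 ^ 14) (by norm_num) i0 (t := i0 + L)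
    (by omega) hb
  rw [Nat.add_sub_cancel_left] at h1
  refine le_trans (Ex_mono wt_nonneg (g := fun x => 61 ^ 14 *
    ∏ u ∈ Finset.Ico a (i0 + L), Bm (9 ^ 14) (i0 - u) (om u x)) fun x => ?_) ?_
  · have e : ∏ u ∈ Finset.Ico a (i0 + L), Bm (9 ^ 14) (i0 - u) (om u x) =
        Gam i0 (i0 + L) x ^ 14 := by
      unfold Gam
      rw [← Finset.prod_pow]
      exact Finset.prod_congr rfl fun u _ => (Bm_pow _ _ _ (by norm_num)).symm
    rw [e, ← mul_pow]
    rcases Gam_cases i0 (i0 + L) x with h | h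
    · rw [h]; norm_num
    · have : (1 + 60 * Gam i0 (i0 + L) x) ^ 14 ≤ (61 * Gam i0 (i0 + L) x) ^ 14 :=
        pow_le_pow_left₀ (by linarith) (by linarith) 14
      linarith
  · rw [Ex_mul_left]
    calc _ ≤ 61 ^ 14 * (VV a (i0 + L) * Real.exp (kap (9 ^ 14) * (1 + L))) := by gcongr
      _ = _ := by ring

end Crest.Agent.H1Gap
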