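import Crest.Agent.H1Gap.Core

set_option autoImplicit false

namespace Crest.Agent.H1Gap

open Finset

attribute [local irreducible] kap VV zz K1 c0 c1 c2 c3 Bx G3

open Classical in
/-- primes followed by a gap longer than `h`. -/
noncomputable def Gap (h Y : ℕ) : Finset ℕ :=
  (Finset.range Y).filter fun p => p.Prime ∧ ∀ n, p < n → n ≤ p + h → ¬ n.Prime

lemma exists_pv {T h d : ℕ} (h1 : 0 < d) (h2 : d ≤ T * h) :
    ∃ q : Fin T × Fin h, pv (some q) = d := by
  have h0 : 0 < h := Nat.pos_of_ne_zero (by rintro rfl; omega)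
  refine ⟨(⟨(d - 1) / h, Nat.div_lt_of_lt_mul (by rw [mul_comm]; omega)⟩,
    ⟨(d - 1) % h, Nat.mod_lt _ h0⟩), ?_⟩
  simp only [pv]
  rw [Nat.div_add_mod']
  omega

lemma good_le {T h X D : ℕ} (S : Finset ℕ) (hS : ∀ m ∈ S, m.Prime ∧ m < X ∧
      (∃ i : Fin T, ∀ j : Fin h, ¬ (m + pv (some (i, j))).Prime) ∧
      #{q : Fin T × Fin h | (m + pv (some q)).Prime} < D) :
    #S ≤ D * #(Gap h (X + T * h)) := by
  have h1 : ∀ m ∈ S, ∃ p ∈ Gap h (X + T * h), m ≤ p ∧ p ≤ m + T * h := by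
    intro m hm
    obtain ⟨hp, hX, ⟨i, hi⟩, -⟩ := hS m hm
    have a1 : m ≤ Nat.findGreatest Nat.Prime (m + i * h) := Nat.le_findGreatest (by omega) hp
    have a2 : (Nat.findGreatest Nat.Prime (m + i * h)).Prime :=
      Nat.findGreatest_spec (m := m) (by omega) hp
    have a3 := Nat.findGreatest_le (P := Nat.Prime) (m + i * h)
    have a4 : i * h ≤ T * h := Nat.mul_le_mul_right _ i.isLt.le
    refine ⟨_, ?_, a1, by omega⟩
    simp only [Gap, Finset.mem_filter, Finset.mem_range]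
    refine ⟨by omega, a2, fun n hn1 hn2 => ?_⟩
    by_cases hn : n ≤ m + i * h
    · exact Nat.findGreatest_is_greatest hn1 hn
    · have := hi ⟨n - (m + i * h) - 1, by omega⟩
      simp only [pv] at this
      rwa [show m + (i * h + (n - (m + i * h) - 1) + 1) = n by omega] at this
  choose! φ hφ using h1
  refine Finset.card_le_mul_card_image_of_maps_to (f := φ) (fun m hm => (hφ m hm).1) D
    fun p _ => ?_
  rcases (S.filter fun a => φ a = p).eq_empty_or_nonempty with he | he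
  · simp [he]
  have hm0 := Finset.min'_mem _ he
  have hmin := Finset.min'_le (S.filter fun a => φ a = p)
  set m0 := Finset.min' _ he
  obtain ⟨b1, b2⟩ := Finset.mem_filter.1 hm0
  have hsub : (S.filter fun a => φ a = p) ⊆ insert m0 ((Finset.univ.filter
      fun q : Fin T × Fin h => (m0 + pv (some q)).Prime).image fun q => m0 + pv (some q)) := by
    intro m hm
    obtain ⟨c1, c2⟩ := Finset.mem_filter.1 hm
    have c3 : m0 ≤ m := hmin m hm
    rcases c3.eq_or_lt with e | e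
    · rw [← e]; exact Finset.mem_insert_self _ _
    · have d1 := (hφ m c1).2.1
      have d2 := (hφ m0 b1).2.2
      obtain ⟨q, hq⟩ := exists_pv (T := T) (h := h) (d := m - m0) (by omega) (by omega)
      have d3 : m0 + pv (some q) = m := by omega
      refine Finset.mem_insert_of_mem (Finset.mem_image.2 ⟨q, ?_, d3⟩)
      simp only [Finset.mem_filter, Finset.mem_univ, true_and, d3]
      exact (hS m c1).1
  refine (Finset.card_le_card hsub).trans ((Finset.card_insert_le _ _).trans ?_)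
  exact Nat.succ_le_of_lt (lt_of_le_of_lt Finset.card_image_le (hS m0 b1).2.2.2)

lemma count_ge {X τ : ℕ} (hX : 2 ≤ X) (hτ : X < zz (τ + 1)) :
    (X : ℝ) / 2 ^ (τ + 1) - 3 ≤ #((Finset.range X).filter Nat.Prime) := by
  have h1 := Chebyshev.pi_ge X
  have h2 : Nat.primeCounting X ≤ #((Finset.range X).filter Nat.Prime) + 1 := by
    rw [← Nat.count_eq_card_filter_range, Nat.primeCounting, Nat.primeCounting', Nat.count_succ]
    split_ifs <;> omega
  have hX' : (2 : ℝ) ≤ X := by exact_mod_cast hX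
  have h3 : 0 < Real.log X := Real.log_pos (by linarith)
  have hl2 : 0 < Real.log 2 := Real.log_pos (by norm_num)
  have h4 : Real.log X ≤ 2 ^ (τ + 1) * Real.log 2 := by
    have : (X : ℝ) ≤ 2 ^ (2 ^ (τ + 1)) := by
      unfold zz at hτ
      exact_mod_cast hτ.le
    refine (Real.log_le_log (by linarith) this).trans (le_of_eq ?_)
    rw [Real.log_pow]; push_cast; ring
  have h5 : Real.log (X + 1) ≤ 2 * Real.log X := by
    have : (X : ℝ) + 1 ≤ X ^ 2 := by nlinarith
    refine (Real.log_le_log (by linarith) this).trans (le_of_eq ?_)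
    rw [Real.log_pow]; push_cast; ring
  have h6 : (X : ℝ) / 2 ^ (τ + 1) ≤ X * Real.log 2 / Real.log X := by
    rw [div_le_div_iff₀ (by positivity) h3]
    nlinarith
  have h7 : Real.log (X + 1) / Real.log X ≤ 2 := by rw [div_le_iff₀ h3]; exact h5
  rw [sub_div] at h1
  have h8 : (Nat.primeCounting X : ℝ) ≤ #((Finset.range X).filter Nat.Prime) + 1 := by
    exact_mod_cast h2
  linarith

lemma sq_le_zz (j : ℕ) : (2 ^ j) ^ 2 ≤ zz j := by
  unfold zz
  rw [← pow_mul]
  refine Nat.pow_le_pow_right (by norm_num) ?_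
  rcases j with _ | j
  · simp
  · have := @Nat.lt_two_pow_self j
    rw [pow_succ]; omega

lemma exists_scale {h : ℕ} (hh : 2 ≤ h) : ∃ l, zz l ≤ h ∧ h < zz (l + 1) := by
  have h1 : 0 < Nat.log 2 h := Nat.log_pos (by norm_num) hh
  refine ⟨Nat.log 2 (Nat.log 2 h), ?_, ?_⟩
  · unfold zz
    exact (Nat.pow_le_pow_right (by norm_num) (Nat.pow_log_le_self 2 h1.ne')).trans
      (Nat.pow_log_le_self 2 (by omega))
  · unfold zz
    exact (Nat.lt_pow_succ_log_self (by norm_num) h).trans_le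
      (Nat.pow_le_pow_right (by norm_num) (Nat.lt_pow_succ_log_self (by norm_num) _))

lemma lt_of_zz_lt {a b : ℕ} (h : zz a < zz b) : a < b := by
  by_contra hn
  exact absurd (zz_mono (not_lt.1 hn)) (not_le.2 h)

theorem gaps (C : ℕ) (hC : 0 < C) : ∃ D τ0 : ℕ, 0 < D ∧ ∀ τ X h : ℕ, τ0 ≤ τ → zz τ ≤ X →
    X < zz (τ + 1) → 2 ^ τ ≤ h → h ≤ C * 2 ^ (τ + 2) →
    (X : ℝ) / 2 ^ τ / 8 ≤ D * #(Gap h (2 * X)) := by
  classical
  set Dd : ℝ := C * 2 ^ 13 with hDd
  have hC' : (0 : ℝ) < C := by exact_mod_cast hC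
  have hDd0 : 0 < Dd := by positivity
  have := c0_pos
  have := c1_pos
  have := c2_pos
  obtain ⟨L, hL⟩ := exists_nat_gt (2 * (c1 * Dd) * (c2 * Dd))
  have hL0 : 0 < L := by
    have : (0 : ℝ) < L := lt_trans (by positivity) hL
    exact_mod_cast this
  set w : ℝ := c0 * Real.exp (kap 9) with hw
  have hw0 : 0 < w := by positivity
  obtain ⟨T, hT⟩ := exists_nat_gt (w * (4 * Real.exp (Bx Dd L)) * 2 ^ 15)
  have hT' : (0 : ℝ) < T := lt_trans (by positivity) hT
  have hT0 : 0 < T := by exact_mod_cast hT'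
  obtain ⟨D, hD⟩ := exists_nat_gt (w * (T * (c1 * Dd)) * 2 ^ 15)
  have hD' : (0 : ℝ) < D := lt_trans (by positivity) hD
  have hD0 : 0 < D := by exact_mod_cast hD'
  have hD1 : (1 : ℝ) ≤ D := by exact_mod_cast hD0
  obtain ⟨K2, hK2⟩ := exists_nat_gt (Real.exp (Bx Dd L))
  obtain ⟨K3, hK3⟩ := exists_nat_gt (32 * T * G3 Dd L T)
  set K := C * 2 ^ (L + 17) with hK
  refine ⟨D, (K * L + K * T + 4 * T + K2 + K3 + 40 * 2 ^ (L + 15) + 65536) + L + 15, hD0, ?_⟩
  intro τ X h hτ hX1 hX2 hh1 hh2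
  obtain ⟨j, rfl⟩ : ∃ j, τ = j + L + 15 := ⟨τ - L - 15, by omega⟩
  have hy := @Nat.lt_two_pow_self j
  have hz := sq_le_zz j
  have e1 : 2 ^ (j + L + 15) = 2 ^ (L + 15) * 2 ^ j := by ring
  have e2 : C * 2 ^ (j + L + 15 + 2) = K * 2 ^ j := by rw [hK]; ring
  have e3 : 2 ^ (j + 4) = 16 * 2 ^ j := by ring
  have hy1 : 2 ^ j ≤ 2 ^ (j + L + 15) := Nat.pow_le_pow_right (by norm_num) (by omega)
  rw [e2] at hh2
  have hKL : K ≤ K * L := Nat.le_mul_of_pos_right _ hL0
  have hz1 : zz j ≤ zz (j + 4) := zz_mono (by omega)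
  have hz2 : zz j ≤ zz (j + 4 + L + 10) := zz_mono (by omega)
  have hz3 : zz (j + 4 + L) ≤ zz (j + 4 + L + 10) := zz_mono (by omega)
  have hz4 : zz (j + 4 + L + 10) ^ 2 ≤ X := by
    rw [← zz_succ, show j + 4 + L + 10 + 1 = j + L + 15 by ring]; exact hX1
  have hz5 : zz j ≤ X := (zz_mono (by omega)).trans hX1
  set y := 2 ^ j with hydef
  have hyy : y ≤ y ^ 2 := Nat.le_self_pow two_ne_zero y
  clear_value y K
  have hKy : K < y := by omega
  have hhy : h < y ^ 2 := by
    rw [sq]; exact lt_of_le_of_lt hh2 (Nat.mul_lt_mul_of_pos_right hKy (by omega))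
  have hz' : y * y ≤ zz j := by rw [← sq]; exact hz
  obtain ⟨l, hl1, hl2⟩ := exists_scale (h := h) (by omega)
  have hl4 : 4 < l + 1 := lt_of_zz_lt (by
    have : zz 4 = 65536 := by unfold zz; norm_num
    omega)
  obtain ⟨t, rfl⟩ : ∃ t, l = t + 4 := ⟨l - 4, by omega⟩
  have htj : t + 4 < j := lt_of_zz_lt (by omega)
  have g1 : zz t ^ 16 ≤ h := by rw [zz_add] at hl1; exact hl1
  have g2 : h ^ 8 ≤ zz (t + 8) := by
    rw [show t + 8 = t + 4 + 1 + 3 by ring, zz_add _ 3]
    exact Nat.pow_le_pow_left hl2.le _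
  have g3 : (h : ℝ) ≤ Dd * 2 ^ (j + 4 + L) := by
    have : h ≤ C * 2 ^ 13 * 2 ^ (j + 4 + L) := by
      refine hh2.trans (le_of_eq ?_)
      rw [hK, hydef]; ring
    rw [hDd]; exact_mod_cast this
  have g4 : 4 ^ zz t ≤ zz (j + 4) := by
    have a1 : zz t ^ 2 ≤ zz t ^ 16 := Nat.pow_le_pow_right (by have := two_le_zz t; omega) (by norm_num)
    have a2 : zz t < y := lt_of_pow_lt_pow_left₀ 2 (by omega) (by omega)
    rw [show 4 ^ zz t = 2 ^ (2 * zz t) by rw [pow_mul]; norm_num]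
    conv_rhs => unfold zz
    exact Nat.pow_le_pow_right (by norm_num) (by omega)
  have g5 : h * L ≤ zz (j + 4) := by
    calc h * L ≤ K * y * L := Nat.mul_le_mul_right _ hh2
      _ = K * L * y := by ring
      _ ≤ y * y := Nat.mul_le_mul_right _ (by omega)
      _ ≤ _ := hz'.trans hz1
  have g6 : Real.exp (Bx Dd L) ≤ zz (j + 4) :=
    hK2.le.trans (by exact_mod_cast (by omega : K2 ≤ zz (j + 4)))
  have g7 : T * h ≤ X := by
    calc T * h ≤ T * (K * y) := Nat.mul_le_mul_left _ hh2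
      _ = K * T * y := by ring
      _ ≤ y * y := Nat.mul_le_mul_right _ (by omega)
      _ ≤ _ := hz'.trans hz5
  have k1 := (AP_Fm (by omega) (by omega) g3 g1 hL0 hT0 hD1 g4 g5 (by omega) g6).transfer
    (Nat.mul_pos (QQ_pos _ _) (QQ_pos _ _)) 0 X
  have k2 := avg_Fm (by omega) (by omega) g3 g1 hT0 hD1 g2 (by omega)
  simp only [zero_add] at k1
  set Z : ℝ := 2 ^ (j + L + 15) with hZ
  have hZ0 : 0 < Z := by positivity
  have hZh : Z ≤ h := by rw [hZ]; exact_mod_cast hh1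
  have k3 : w * (4 * Real.exp (Bx Dd L) / T + T * (c1 * Dd) / D) / 2 ^ (j + 4 + L) ≤ 1 / Z / 8 := by
    have a1 : w * (4 * Real.exp (Bx Dd L) / T) ≤ 1 / 2 ^ 15 := by
      rw [← mul_div_assoc, div_le_div_iff₀ hT' (by positivity)]; linarith
    have a2 : w * (T * (c1 * Dd) / D) ≤ 1 / 2 ^ 15 := by
      rw [← mul_div_assoc, div_le_div_iff₀ hD' (by positivity)]; linarith
    calc _ ≤ ((1 : ℝ) / 2 ^ 15 + 1 / 2 ^ 15) / 2 ^ (j + 4 + L) := by
          rw [mul_add]
          exact div_le_div_of_nonneg_right (add_le_add a1 a2) (by positivity)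
      _ = _ := by rw [hZ]; field_simp; ring
  have k4 : 4 * T * G3 Dd L T / h ^ 3 ≤ 1 / Z / 8 := by
    have a1 : 32 * T * G3 Dd L T ≤ Z :=
      hK3.le.trans (by rw [hZ]; exact_mod_cast (by omega : K3 ≤ 2 ^ (j + L + 15)))
    have a2 : (1 : ℝ) ≤ Z := one_le_pow₀ (by norm_num)
    calc _ ≤ (Z / 8) / h ^ 3 :=
          div_le_div_of_nonneg_right (by linarith) (pow_nonneg (Nat.cast_nonneg _) 3)
      _ ≤ (Z / 8) / Z ^ 2 := div_le_div_of_nonneg_left (by positivity) (by positivity)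
          ((pow_le_pow_right₀ a2 (by norm_num)).trans (pow_le_pow_left₀ hZ0.le hZh 3))
      _ = _ := by field_simp
  set R := zz (j + 4 + L + 10) with hR
  have k5 : 2 * (R : ℝ) + 4 ≤ X / Z / 8 := by
    have a1 : 40 * 2 ^ (j + L + 15) ≤ R := by
      calc _ = 40 * 2 ^ (L + 15) * y := by rw [e1]; ring
        _ ≤ y * y := Nat.mul_le_mul_right _ (by omega)
        _ ≤ _ := hz'.trans hz2
    have a2 : 40 * Z ≤ R := by rw [hZ]; exact_mod_cast a1
    have a3 : (R : ℝ) ^ 2 ≤ X := by exact_mod_cast hz4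
    have a4 : (2 : ℝ) ≤ R := by exact_mod_cast two_le_zz _
    rw [div_div, le_div_iff₀ (by positivity)]
    calc _ ≤ (4 * R) * (Z * 8) := mul_le_mul_of_nonneg_right (by linarith) (by positivity)
      _ = R * (32 * Z) := by ring
      _ ≤ R * R := mul_le_mul_of_nonneg_left (by linarith) (Nat.cast_nonneg _)
      _ ≤ _ := by rw [← sq]; exact a3
  have k6 := count_ge (X := X) (τ := j + L + 15) (le_trans (two_le_zz _) hz5) hX2
  set bad : ℕ → Prop := fun m => (∀ i : Fin T, ∃ j : Fin h, (m + pv (some (i, j))).Prime) ∨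
      (D : ℝ) ≤ #{q : Fin T × Fin h | (m + pv (some q)).Prime} with hbad
  set S := (Finset.range X).filter fun m => m.Prime ∧ zz (j + 4 + L) < m with hS
  have k7 : #((Finset.range X).filter Nat.Prime) ≤ #S + (R + 1) := by
    rw [← Finset.card_range (R + 1)]
    refine le_trans (Finset.card_le_card fun m hm => ?_) (Finset.card_union_le _ _)
    simp only [hS, Finset.mem_filter, Finset.mem_range, Finset.mem_union] at hm ⊢
    by_cases hm' : zz (j + 4 + L) < m
    · exact Or.inl ⟨hm.1, hm.2, hm'⟩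
    · exact Or.inr (by omega)
  have k8 : (#(S.filter bad) : ℝ) ≤ ∑ m ∈ Finset.range X, Fm t (j + 4) L T h D m := by
    rw [Finset.card_eq_sum_ones, Nat.cast_sum]
    refine le_trans (Finset.sum_le_sum fun m hm => ?_)
      (Finset.sum_le_sum_of_subset_of_nonneg ((Finset.filter_subset _ _).trans
        (Finset.filter_subset _ _)) fun m _ _ => Fm_nonneg hD' m)
    obtain ⟨b1, b2⟩ := Finset.mem_filter.1 hm
    obtain ⟨-, b3, b4⟩ := Finset.mem_filter.1 b1
    rw [Nat.cast_one]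
    exact one_le_Fm (by omega) (by omega) g3 g1 hL0 hL.le hT0 hD' b3 b4 b2
  have k9 := good_le (T := T) (h := h) (X := X) (D := D) (S.filter fun m => ¬ bad m) (by
    intro m hm
    obtain ⟨b1, b2⟩ := Finset.mem_filter.1 hm
    obtain ⟨b5, b3, -⟩ := Finset.mem_filter.1 b1
    simp only [hbad, not_or, not_forall, not_exists, not_le] at b2
    exact ⟨b3, Finset.mem_range.1 b5, b2.1, by exact_mod_cast b2.2⟩)
  have k10 : #(Gap h (X + T * h)) ≤ #(Gap h (2 * X)) :=
    Finset.card_le_card (Finset.filter_subset_filter _ (Finset.range_subset_range.2 (by omega)))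
  have k11 := Finset.card_filter_add_card_filter_not (s := S) bad
  have k12 : #((Finset.range X).filter Nat.Prime) ≤ #(S.filter bad) + D * #(Gap h (2 * X)) + (R + 1) := by
    have := Nat.mul_le_mul_left D k10
    omega
  have k13 : (#((Finset.range X).filter Nat.Prime) : ℝ) ≤
      #(S.filter bad) + D * #(Gap h (2 * X)) + (R + 1) := by exact_mod_cast k12
  have k14 := mul_le_mul_of_nonneg_left (k2.trans (add_le_add k3 k4)) (Nat.cast_nonneg (α := ℝ) X)
  have k15 : (X : ℝ) / 2 ^ (j + L + 15 + 1) = X / Z / 2 := by rw [hZ, pow_succ, div_div]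
  have k16 : (X : ℝ) * (1 / Z / 8 + 1 / Z / 8) = X / Z / 4 := by ring
  linarith

end Crest.Agent.H1Gap
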