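import Mathlib

set_option autoImplicit false

namespace Crest.Agent.H1Gap

open Finset

section
variable {ι α : Type*} [Fintype ι] [DecidableEq ι] [Fintype α]

/-- expectation for product weights. -/
noncomputable def Ex (w : ι → α → ℝ) (f : (ι → α) → ℝ) : ℝ := ∑ x, (∏ i, w i (x i)) * f x

lemma Ex_prod (w : ι → α → ℝ) (g : ι → α → ℝ) :
    Ex w (fun x => ∏ i, g i (x i)) = ∏ i, ∑ a, w i a * g i a := by
  unfold Ex
  rw [Finset.prod_univ_sum, Fintype.piFinset_univ]
  refine Finset.sum_congr rfl fun x _ => ?_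
  rw [Finset.prod_mul_distrib]

lemma Ex_add (w : ι → α → ℝ) (f g : (ι → α) → ℝ) :
    Ex w (fun x => f x + g x) = Ex w f + Ex w g := by
  unfold Ex
  simp only [mul_add, Finset.sum_add_distrib]

lemma Ex_sub (w : ι → α → ℝ) (f g : (ι → α) → ℝ) :
    Ex w (fun x => f x - g x) = Ex w f - Ex w g := by
  unfold Ex
  simp only [mul_sub, Finset.sum_sub_distrib]

lemma Ex_mul_left (w : ι → α → ℝ) (c : ℝ) (f : (ι → α) → ℝ) :
    Ex w (fun x => c * f x) = c * Ex w f := by
  unfold Ex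
  rw [Finset.mul_sum]
  exact Finset.sum_congr rfl fun x _ => by ring

lemma Ex_sum {κ : Type*} (w : ι → α → ℝ) (s : Finset κ) (f : κ → (ι → α) → ℝ) :
    Ex w (fun x => ∑ k ∈ s, f k x) = ∑ k ∈ s, Ex w (f k) := by
  unfold Ex
  simp only [Finset.mul_sum]
  rw [Finset.sum_comm]

lemma Ex_mono {w : ι → α → ℝ} (hw : ∀ i a, 0 ≤ w i a) {f g : (ι → α) → ℝ} (h : ∀ x, f x ≤ g x) :
    Ex w f ≤ Ex w g :=
  Finset.sum_le_sum fun x _ =>
    mul_le_mul_of_nonneg_left (h x) (Finset.prod_nonneg fun i _ => hw i _)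

lemma Ex_nonneg {w : ι → α → ℝ} (hw : ∀ i a, 0 ≤ w i a) {f : (ι → α) → ℝ} (h : ∀ x, 0 ≤ f x) :
    0 ≤ Ex w f :=
  Finset.sum_nonneg fun x _ => mul_nonneg (Finset.prod_nonneg fun i _ => hw i _) (h x)

lemma sum_weight {w : ι → α → ℝ} (h1 : ∀ i, ∑ a, w i a = 1) : ∑ x : ι → α, ∏ i, w i (x i) = 1 := by
  rw [← Fintype.piFinset_univ, ← Finset.prod_univ_sum]
  simp [h1]

lemma Ex_const {w : ι → α → ℝ} (h1 : ∀ i, ∑ a, w i a = 1) (c : ℝ) : Ex w (fun _ => c) = c := by
  unfold Ex
  rw [← Finset.sum_mul, sum_weight h1, one_mul]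

lemma Ex_congr (w : ι → α → ℝ) {f g : (ι → α) → ℝ} (h : ∀ x, f x = g x) : Ex w f = Ex w g := by
  rw [show f = g from funext h]

/-- independence for functions of disjoint sets of coordinates. -/
lemma Ex_indep {w : ι → α → ℝ} (h1 : ∀ i, ∑ a, w i a = 1) (A : ι → Prop)
    (f g : (ι → α) → ℝ) (hf : ∀ x y, (∀ i, A i → x i = y i) → f x = f y)
    (hg : ∀ x y, (∀ i, ¬ A i → x i = y i) → g x = g y) :
    Ex w (fun x => f x * g x) = Ex w f * Ex w g := by
  classical
  let e : (ι → α) × (ι → α) → (ι → α) × (ι → α) := fun p =>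
    (fun i => if A i then p.1 i else p.2 i, fun i => if A i then p.2 i else p.1 i)
  have he : Function.Involutive e := by
    intro p
    ext i <;> by_cases h : A i <;> simp [e, h]
  have h2 : Ex w (fun x => f x * g x) = ∑ p : (ι → α) × (ι → α),
      ((∏ i, w i (p.1 i)) * (∏ i, w i (p.2 i))) * (f p.1 * g p.1) := by
    rw [Fintype.sum_prod_type]
    unfold Ex
    refine Finset.sum_congr rfl fun x _ => ?_
    dsimp only
    rw [← Finset.sum_mul, ← Finset.mul_sum, sum_weight h1, mul_one]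
  have h3 : Ex w f * Ex w g = ∑ p : (ι → α) × (ι → α),
      ((∏ i, w i (p.1 i)) * (∏ i, w i (p.2 i))) * (f p.1 * g p.2) := by
    rw [Fintype.sum_prod_type]
    unfold Ex
    rw [Finset.sum_mul_sum]
    refine Finset.sum_congr rfl fun x _ => Finset.sum_congr rfl fun y _ => by ring
  rw [h2, h3, ← Equiv.sum_comp he.toPerm]
  refine Finset.sum_congr rfl fun p _ => ?_
  simp only [Function.Involutive.coe_toPerm]
  congr 1
  · rw [← Finset.prod_mul_distrib, ← Finset.prod_mul_distrib]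
    refine Finset.prod_congr rfl fun i _ => ?_
    by_cases h : A i <;> simp [e, h, mul_comm]
  · congr 1
    · exact hf _ _ fun i hi => by simp [e, hi]
    · exact hg _ _ fun i hi => by simp [e, hi]

lemma Ex_coord {w : ι → α → ℝ} (h1 : ∀ i, ∑ a, w i a = 1) (j : ι) (g : α → ℝ) :
    Ex w (fun x => g (x j)) = ∑ a, w j a * g a := by
  have := Ex_prod w (fun i a => if i = j then g a else 1)
  simp only [Finset.prod_ite_eq', Finset.mem_univ, if_true] at this
  rw [this, Finset.prod_eq_single j]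
  · simp
  · intro i _ hi
    simp [hi, h1]
  · simp

/-- marginalisation. -/
lemma Ex_comp {κ : Type*} [Fintype κ] [DecidableEq κ] {π : α → ℝ} (h1 : ∑ a, π a = 1)
    (e : κ → ι) (he : Function.Injective e) (Φ : (κ → α) → ℝ) :
    Ex (fun _ : ι => π) (fun x => Φ (fun k => x (e k))) = Ex (fun _ : κ => π) Φ := by
  classical
  have h2 : ∀ x : ι → α, Φ (fun k => x (e k)) =
      ∑ y : κ → α, Φ y * ∏ i, (∏ k ∈ Finset.univ.filter (fun k => e k = i),
        if x i = y k then (1 : ℝ) else 0) := by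
    intro x
    have : ∀ y : κ → α, ∏ i, (∏ k ∈ Finset.univ.filter (fun k => e k = i),
        if x i = y k then (1 : ℝ) else 0) = if (fun k => x (e k)) = y then 1 else 0 := by
      intro y
      have h3 : ∀ i, (∏ k ∈ Finset.univ.filter (fun k => e k = i),
          if x i = y k then (1 : ℝ) else 0) = ∏ k ∈ Finset.univ.filter (fun k => e k = i),
          if x (e k) = y k then (1 : ℝ) else 0 := by
        intro i
        refine Finset.prod_congr rfl fun k hk => ?_
        rw [(Finset.mem_filter.1 hk).2]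
      simp only [h3]
      rw [Finset.prod_fiberwise Finset.univ e, Finset.prod_boole]
      simp [funext_iff]
    simp only [this]
    simp
  rw [Ex_congr _ h2, Ex_sum]
  unfold Ex
  refine Finset.sum_congr rfl fun y _ => ?_
  have h4 := Ex_mul_left (fun _ : ι => π) (Φ y) (fun x => ∏ i, (∏ k ∈ Finset.univ.filter
    (fun k => e k = i), if x i = y k then (1 : ℝ) else 0))
  unfold Ex at h4
  rw [h4, mul_comm]
  congr 1
  have h5 := Ex_prod (fun _ : ι => π) (fun i a => ∏ k ∈ Finset.univ.filter (fun k => e k = i),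
    if a = y k then (1 : ℝ) else 0)
  unfold Ex at h5
  rw [h5, ← Finset.prod_fiberwise Finset.univ e (fun k => π (y k))]
  refine Finset.prod_congr rfl fun i _ => ?_
  by_cases hi : ∃ k, e k = i
  · obtain ⟨k, rfl⟩ := hi
    have : Finset.univ.filter (fun k' => e k' = e k) = {k} := by
      ext k'; simp [he.eq_iff]
    simp [this]
  · have : Finset.univ.filter (fun k' => e k' = i) = ∅ := by
      ext k'; simpa using fun h => hi ⟨k', h⟩
    simp [this, h1]

/-- chi-square comparison. -/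
lemma Ex_chi {μ π : ι → α → ℝ} (hμ : ∀ i, ∑ a, μ i a = 1) (hπ : ∀ i, ∑ a, π i a = 1)
    (hpos : ∀ i a, 0 < π i a) (Φ : (ι → α) → ℝ) :
    (Ex μ Φ - Ex π Φ) ^ 2 ≤
      Ex π (fun x => Φ x ^ 2) * ((∏ i, ∑ a, μ i a ^ 2 / π i a) - 1) := by
  set W : (ι → α) → ℝ := fun x => ∏ i, π i (x i) with hW
  set M : (ι → α) → ℝ := fun x => ∏ i, μ i (x i) with hM
  have hWpos : ∀ x, 0 < W x := fun x => Finset.prod_pos fun i _ => hpos i _
  have h1 : Ex μ Φ - Ex π Φ = ∑ x, (√(W x) * Φ x) * ((M x - W x) / √(W x)) := by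
    unfold Ex
    rw [← Finset.sum_sub_distrib]
    refine Finset.sum_congr rfl fun x _ => ?_
    have := Real.sqrt_pos.2 (hWpos x)
    field_simp
    ring
  have h2 : ∑ x, (√(W x) * Φ x) ^ 2 = Ex π (fun x => Φ x ^ 2) := by
    unfold Ex
    refine Finset.sum_congr rfl fun x _ => ?_
    rw [mul_pow, Real.sq_sqrt (hWpos x).le]
  have h3 : ∑ x, ((M x - W x) / √(W x)) ^ 2 = (∏ i, ∑ a, μ i a ^ 2 / π i a) - 1 := by
    have e1 : ∀ x, ((M x - W x) / √(W x)) ^ 2 = M x ^ 2 / W x - 2 * M x + W x := by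
      intro x
      rw [div_pow, Real.sq_sqrt (hWpos x).le]
      have := hWpos x
      field_simp
      ring
    simp only [e1, Finset.sum_add_distrib, Finset.sum_sub_distrib, ← Finset.mul_sum]
    rw [sum_weight hμ, sum_weight hπ, Finset.prod_univ_sum, Fintype.piFinset_univ]
    have : ∑ x, M x ^ 2 / W x = ∑ x : ι → α, ∏ i, μ i (x i) ^ 2 / π i (x i) := by
      refine Finset.sum_congr rfl fun x _ => ?_
      rw [Finset.prod_div_distrib, Finset.prod_pow]
    rw [this]
    ring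
  rw [h1, ← h2, ← h3]
  exact Finset.sum_mul_sq_le_sq_mul_sq _ _ _

end

/-- swapping the two index sets. -/
lemma Ex_swap {ι κ α : Type*} [Fintype ι] [DecidableEq ι] [Fintype κ] [DecidableEq κ] [Fintype α]
    (w : ι → α → ℝ) (Φ : (κ → ι → α) → ℝ) :
    Ex (fun (i : ι) (y : κ → α) => ∏ k, w i (y k)) (fun Y => Φ (fun k i => Y i k)) =
      Ex (fun (_ : κ) (x : ι → α) => ∏ i, w i (x i)) Φ := by
  unfold Ex
  rw [← Equiv.sum_comp (Equiv.piComm (fun (_ : ι) (_ : κ) => α))]
  refine Finset.sum_congr rfl fun Y _ => ?_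
  rw [Finset.prod_comm]
  rfl

end Crest.Agent.H1Gap
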