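import Crest.Agent.H1Gap.AP

set_option autoImplicit false
set_option linter.unusedSectionVars false

namespace Crest.Agent.H1Gap

open Finset

variable {Λ J : Type*} [Fintype J] [DecidableEq J] {L : ℕ}

def cst : Option (Fin L) → ℕ
  | none => 0
  | some k => 2 ^ k.val

def atm (f : Fin L → Λ → ℝ) : Option (Fin L) → ℝ → Λ → ℝ
  | none => fun _ _ => 1
  | some k => fun s x => s * f k x

def cost (g : J → Option (Fin L)) : ℕ := ∑ j, cst (g j)

def GG (J : Type*) [Fintype J] [DecidableEq J] (L : ℕ) : Finset (J → Option (Fin L)) :=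
  Finset.univ.filter (fun g => cost g ≤ 2 ^ (L + 1))

def trm (f : Fin L → Λ → ℝ) (s : J → ℝ) (x : J → Λ) (g : J → Option (Fin L)) : ℝ :=
  ∏ j, atm f (g j) (s j) (x j)

def FF (f : Fin L → Λ → ℝ) (s : J → ℝ) (x : J → Λ) : ℝ := ∑ g ∈ GG J L, trm f s x g

noncomputable def tau (g : J → Option (Fin L)) : ℝ :=
  1 - (#{k : Fin L | cost g + 2 ^ k.val ≤ 2 ^ (L + 1)} : ℝ) / L

noncomputable def RR (f : Fin L → Λ → ℝ) (j0 : J) (s : J → ℝ) (x : J → Λ) : ℝ :=
  ∑ g ∈ (GG J L).filter (fun g => g j0 = none), tau g * trm f s x g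

noncomputable def uu (f : Fin L → Λ → ℝ) (P : Λ → ℝ) (s : J → ℝ) (x : J → Λ) : ℝ :=
  FF f s x ^ 2 - ∑ j0, s j0 * P (x j0) * RR f j0 s x ^ 2

lemma sum_update {O : Type*} [Fintype O] [DecidableEq O] (o0 : O) (j0 : J) (φ : (J → O) → ℝ) :
    ∑ g, φ g = ∑ g ∈ Finset.univ.filter (fun g : J → O => g j0 = o0),
      ∑ o, φ (Function.update g j0 o) := by
  rw [← Finset.sum_product']
  refine Finset.sum_bij' (fun g _ => (Function.update g j0 o0, g j0))
    (fun p _ => Function.update p.1 j0 p.2) ?_ ?_ ?_ ?_ ?_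
  · intro g _; simp
  · intro p _; simp
  · intro g _; simp
  · rintro ⟨g, o⟩ hp
    simp only [Finset.mem_product, Finset.mem_filter, Finset.mem_univ, true_and, and_true] at hp
    simp [← hp]
  · intro g _; simp

lemma prod_update {O : Type*} (j0 : J) (φ : J → O → ℝ) (g : J → O) (o : O)
    (h : φ j0 (g j0) = 1) :
    ∏ j, φ j (Function.update g j0 o j) = φ j0 o * ∏ j, φ j (g j) := by
  rw [← Finset.mul_prod_erase Finset.univ _ (Finset.mem_univ j0),
    ← Finset.mul_prod_erase Finset.univ (fun j => φ j (g j)) (Finset.mem_univ j0), h, one_mul,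
    Function.update_self]
  congr 1
  exact Finset.prod_congr rfl fun j hj => by rw [Function.update_of_ne (Finset.ne_of_mem_erase hj)]

lemma cost_update (j0 : J) (g : J → Option (Fin L)) (o : Option (Fin L)) (h : g j0 = none) :
    cost (Function.update g j0 o) = cost g + cst o := by
  unfold cost
  rw [← Finset.add_sum_erase Finset.univ _ (Finset.mem_univ j0),
    ← Finset.add_sum_erase Finset.univ (fun j => cst (g j)) (Finset.mem_univ j0), h,
    Function.update_self]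
  have : ∑ j ∈ Finset.univ.erase j0, cst (Function.update g j0 o j) =
      ∑ j ∈ Finset.univ.erase j0, cst (g j) :=
    Finset.sum_congr rfl fun j hj => by rw [Function.update_of_ne (Finset.ne_of_mem_erase hj)]
  rw [this]
  simp [cst, add_comm]

lemma tau_nonneg (g : J → Option (Fin L)) : 0 ≤ tau g := by
  unfold tau
  rcases Nat.eq_zero_or_pos L with rfl | hL
  · simp
  · rw [sub_nonneg, div_le_one (by exact_mod_cast hL)]
    exact_mod_cast (Finset.card_filter_le _ _).trans (by simp)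

lemma tau_le_one (g : J → Option (Fin L)) : tau g ≤ 1 := by
  unfold tau
  have : (0 : ℝ) ≤ (#{k : Fin L | cost g + 2 ^ k.val ≤ 2 ^ (L + 1)} : ℝ) / L := by positivity
  linarith

lemma tau_eq_zero (hL : 0 < L) (g : J → Option (Fin L)) (h : cost g ≤ 2 ^ L) : tau g = 0 := by
  unfold tau
  rw [Finset.filter_true_of_mem]
  · have : (L : ℝ) ≠ 0 := by exact_mod_cast hL.ne'
    simp [this]
  · intro k _
    have : 2 ^ k.val ≤ 2 ^ L := Nat.pow_le_pow_right (by norm_num) k.isLt.le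
    rw [pow_succ]; omega

/-- at a prime the weight collapses to its boundary part. -/
lemma FF_eq_RR (f : Fin L → Λ → ℝ) (s : J → ℝ) (x : J → Λ) (j0 : J) (hs : s j0 = 1)
    (hf : ∀ k, f k (x j0) = -1 / L) : FF f s x = RR f j0 s x := by
  unfold FF RR GG
  rw [Finset.sum_filter, sum_update none j0, Finset.filter_comm, Finset.sum_filter (s := Finset.univ.filter _)]
  refine Finset.sum_congr rfl fun g hg => ?_
  have hg0 : g j0 = none := (Finset.mem_filter.1 hg).2
  have e1 : ∀ o, trm f s x (Function.update g j0 o) = atm f o (s j0) (x j0) * trm f s x g :=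
    fun o => prod_update j0 (fun j o => atm f o (s j) (x j)) g o (by rw [hg0]; rfl)
  simp only [cost_update j0 g _ hg0, e1, Fintype.sum_option, cst, atm, hs, hf, add_zero, one_mul]
  split_ifs with h
  · rw [← Finset.sum_filter, Finset.sum_const, nsmul_eq_mul]
    unfold tau
    ring
  · rw [zero_add]
    exact Finset.sum_eq_zero fun k _ => if_neg (fun h' => h (le_trans (Nat.le_add_right _ _) h'))

lemma uu_nonpos (f : Fin L → Λ → ℝ) (P : Λ → ℝ) (hP : ∀ x, 0 ≤ P x) (s : J → ℝ)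
    (hs0 : ∀ j, 0 ≤ s j) (x : J → Λ) (j0 : J) (hs : s j0 = 1)
    (hf : ∀ k, f k (x j0) = -1 / L) (hP1 : P (x j0) = 1) : uu f P s x ≤ 0 := by
  unfold uu
  have := Finset.single_le_sum (f := fun j0 => s j0 * P (x j0) * RR f j0 s x ^ 2)
    (fun j _ => mul_nonneg (mul_nonneg (hs0 j) (hP _)) (sq_nonneg _)) (Finset.mem_univ j0)
  simp only [hs, hP1, one_mul] at this
  rw [FF_eq_RR f s x j0 hs hf]
  linarith

/-- the majorant. -/
def YY (γ : Λ → ℝ) (s : J → ℝ) (x : J → Λ) : ℝ := ∏ j, (1 + s j * γ (x j))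

lemma one_le_YY {γ : Λ → ℝ} (hγ : ∀ x, 0 ≤ γ x) {s : J → ℝ} (hs0 : ∀ j, 0 ≤ s j) (x : J → Λ) :
    1 ≤ YY γ s x :=
  Finset.prod_induction _ (fun y => 1 ≤ y) (fun _ _ ha hb => one_le_mul_of_one_le_of_one_le ha hb)
    le_rfl fun j _ => le_add_of_nonneg_right (mul_nonneg (hs0 j) (hγ _))

lemma one_add_sum_le_prod {ι : Type*} (S : Finset ι) (f : ι → ℝ) (hf : ∀ i ∈ S, 0 ≤ f i) :
    1 + ∑ i ∈ S, f i ≤ ∏ i ∈ S, (1 + f i) := by
  classical
  induction S using Finset.induction_on with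
  | empty => simp
  | insert a S ha ih =>
    rw [Finset.sum_insert ha, Finset.prod_insert ha]
    have h1 := ih fun i hi => hf i (Finset.mem_insert_of_mem hi)
    have h2 := hf a (Finset.mem_insert_self _ _)
    have h3 : 0 ≤ ∑ i ∈ S, f i := Finset.sum_nonneg fun i hi => hf i (Finset.mem_insert_of_mem hi)
    nlinarith

lemma sum_abs_trm_le (f : Fin L → Λ → ℝ) {γ : Λ → ℝ} (hγ : ∀ x, ∑ k, |f k x| ≤ γ x) {s : J → ℝ}
    (hs0 : ∀ j, 0 ≤ s j) (x : J → Λ) : ∑ g, |trm f s x g| ≤ YY γ s x := by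
  unfold trm YY
  simp only [Finset.abs_prod]
  rw [← Fintype.piFinset_univ, ← Finset.prod_univ_sum (fun _ => Finset.univ)
    (fun j o => |atm f o (s j) (x j)|)]
  refine Finset.prod_le_prod (fun j _ => Finset.sum_nonneg fun _ _ => abs_nonneg _) fun j _ => ?_
  simp only [Fintype.sum_option, atm, abs_one, abs_mul, abs_of_nonneg (hs0 j), ← Finset.mul_sum]
  gcongr
  · exact hs0 j
  · exact hγ _

lemma sum_le_YY {P γ : Λ → ℝ} (hP : ∀ x, 0 ≤ P x) (hPγ : ∀ x, P x ≤ γ x) {s : J → ℝ}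
    (hs0 : ∀ j, 0 ≤ s j) (x : J → Λ) : ∑ j, s j * P (x j) ≤ YY γ s x := by
  have h1 : ∑ j, s j * P (x j) ≤ ∑ j, s j * γ (x j) :=
    Finset.sum_le_sum fun j _ => mul_le_mul_of_nonneg_left (hPγ _) (hs0 j)
  have h2 := one_add_sum_le_prod Finset.univ (fun j => s j * γ (x j))
    (fun j _ => mul_nonneg (hs0 j) ((hP _).trans (hPγ _)))
  unfold YY
  linarith

lemma abs_uu_le (f : Fin L → Λ → ℝ) {P γ : Λ → ℝ} (hP : ∀ x, 0 ≤ P x) (hPγ : ∀ x, P x ≤ γ x)
    (hγ : ∀ x, ∑ k, |f k x| ≤ γ x) {s : J → ℝ} (hs0 : ∀ j, 0 ≤ s j) (x : J → Λ) :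
    |uu f P s x| ≤ YY γ s x ^ 3 := by
  have h1 := one_le_YY (fun x => (hP x).trans (hPγ x)) hs0 x
  have h2 := sum_abs_trm_le f hγ hs0 x
  have hF : |FF f s x| ≤ YY γ s x := by
    refine (Finset.abs_sum_le_sum_abs _ _).trans (le_trans ?_ h2)
    exact Finset.sum_le_sum_of_subset_of_nonneg (Finset.subset_univ _) fun _ _ _ => abs_nonneg _
  have hR : ∀ j0, |RR f j0 s x| ≤ YY γ s x := by
    intro j0
    refine (Finset.abs_sum_le_sum_abs _ _).trans (le_trans ?_ h2)
    refine le_trans (Finset.sum_le_sum fun g _ => ?_)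
      (Finset.sum_le_sum_of_subset_of_nonneg (Finset.subset_univ _) fun _ _ _ => abs_nonneg _)
    rw [abs_mul, abs_of_nonneg (tau_nonneg g)]
    exact mul_le_of_le_one_left (abs_nonneg _) (tau_le_one g)
  have h3 : FF f s x ^ 2 ≤ YY γ s x ^ 2 := by
    rw [← sq_abs]; gcongr
  have h4 : ∑ j0, s j0 * P (x j0) * RR f j0 s x ^ 2 ≤ YY γ s x * YY γ s x ^ 2 := by
    refine le_trans ?_ (mul_le_mul_of_nonneg_right (sum_le_YY hP hPγ hs0 x) (by positivity))
    rw [Finset.sum_mul]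
    refine Finset.sum_le_sum fun j _ => mul_le_mul_of_nonneg_left ?_ (mul_nonneg (hs0 j) (hP _))
    rw [← sq_abs]; gcongr; exact hR j
  have h5 : 0 ≤ ∑ j0, s j0 * P (x j0) * RR f j0 s x ^ 2 :=
    Finset.sum_nonneg fun j _ => mul_nonneg (mul_nonneg (hs0 j) (hP _)) (sq_nonneg _)
  have h6 : YY γ s x ^ 2 ≤ YY γ s x ^ 3 := pow_le_pow_right₀ h1 (by norm_num)
  unfold uu
  rw [abs_le]
  constructor <;> nlinarith [sq_nonneg (FF f s x)]

section expectation
variable [Fintype Λ] {π : Λ → ℝ}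

def alf (A : Fin L → ℝ) : Option (Fin L) → ℝ → ℝ
  | none => fun _ => 1
  | some k => fun s => s * A k

def ww (A : Fin L → ℝ) (s : J → ℝ) (g : J → Option (Fin L)) : ℝ := ∏ j, alf A (g j) (s j)

lemma Ex_trm (h1 : ∑ a, π a = 1) (f : Fin L → Λ → ℝ) (A : Fin L → ℝ)
    (hf0 : ∀ k, ∑ a, π a * f k a = 0)
    (hff : ∀ k k', ∑ a, π a * (f k a * f k' a) = if k = k' then A k else 0)
    (s : J → ℝ) (hs : ∀ j, s j * s j = s j) (g g' : J → Option (Fin L)) :
    Ex (fun _ : J => π) (fun x => trm f s x g * trm f s x g') = if g = g' then ww A s g else 0 := by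
  unfold trm
  simp only [← Finset.prod_mul_distrib]
  rw [Ex_prod (fun _ : J => π) (fun j a => atm f (g j) (s j) a * atm f (g' j) (s j) a)]
  have e : ∀ j, ∑ a, π a * (atm f (g j) (s j) a * atm f (g' j) (s j) a) =
      if g j = g' j then alf A (g j) (s j) else 0 := by
    intro j
    rcases g j with _ | k <;> rcases g' j with _ | k'
    · simp [atm, alf, h1]
    · have : ∑ a, π a * (1 * (s j * f k' a)) = s j * ∑ a, π a * f k' a := by
        rw [Finset.mul_sum]; exact Finset.sum_congr rfl fun a _ => by ring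
      simp only [atm, this, hf0]; simp
    · have : ∑ a, π a * ((s j * f k a) * 1) = s j * ∑ a, π a * f k a := by
        rw [Finset.mul_sum]; exact Finset.sum_congr rfl fun a _ => by ring
      simp only [atm, this, hf0]; simp
    · have : ∑ a, π a * ((s j * f k a) * (s j * f k' a)) =
          (s j * s j) * ∑ a, π a * (f k a * f k' a) := by
        rw [Finset.mul_sum]; exact Finset.sum_congr rfl fun a _ => by ring
      simp only [atm, this, hff, hs, alf]
      by_cases h : k = k' <;> simp [h]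
  simp only [e]
  split_ifs with h
  · subst h; simp [ww]
  · obtain ⟨j, hj⟩ := Function.ne_iff.1 h
    exact Finset.prod_eq_zero (Finset.mem_univ j) (if_neg hj)

lemma Ex_sq (h1 : ∑ a, π a = 1) (f : Fin L → Λ → ℝ) (A : Fin L → ℝ)
    (hf0 : ∀ k, ∑ a, π a * f k a = 0)
    (hff : ∀ k k', ∑ a, π a * (f k a * f k' a) = if k = k' then A k else 0)
    (s : J → ℝ) (hs : ∀ j, s j * s j = s j) (S : Finset (J → Option (Fin L)))
    (c : (J → Option (Fin L)) → ℝ) :
    Ex (fun _ : J => π) (fun x => (∑ g ∈ S, c g * trm f s x g) ^ 2) =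
      ∑ g ∈ S, c g ^ 2 * ww A s g := by
  have e : ∀ x, (∑ g ∈ S, c g * trm f s x g) ^ 2 =
      ∑ g ∈ S, ∑ g' ∈ S, (c g * c g') * (trm f s x g * trm f s x g') := by
    intro x
    rw [sq, Finset.sum_mul_sum]
    exact Finset.sum_congr rfl fun g _ => Finset.sum_congr rfl fun g' _ => by ring
  rw [Ex_congr _ e, Ex_sum]
  refine Finset.sum_congr rfl fun g hg => ?_
  rw [Ex_sum]
  simp only [Ex_mul_left, Ex_trm h1 f A hf0 hff s hs]
  rw [Finset.sum_eq_single g]
  · simp [sq]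
  · intro g' _ h; simp [Ne.symm h]
  · intro h; exact absurd hg h

lemma ww_nonneg {A : Fin L → ℝ} (hA : ∀ k, 0 ≤ A k) {s : J → ℝ} (hs0 : ∀ j, 0 ≤ s j)
    (g : J → Option (Fin L)) : 0 ≤ ww A s g := by
  refine Finset.prod_nonneg fun j _ => ?_
  rcases g j with _ | k
  · simp [alf]
  · exact mul_nonneg (hs0 j) (hA k)

lemma markov {A : Fin L → ℝ} (hA : ∀ k, 0 ≤ A k) {s : J → ℝ} (hs0 : ∀ j, 0 ≤ s j) :
    ∑ g ∈ GG J L, (cost g : ℝ) * ww A s g ≤
      ((∑ j, s j) * ∑ k : Fin L, 2 ^ k.val * A k) * ∑ g ∈ GG J L, ww A s g := by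
  have e : ∀ g : J → Option (Fin L), (cost g : ℝ) * ww A s g = ∑ j, (cst (g j) : ℝ) * ww A s g := by
    intro g; unfold cost; push_cast; rw [Finset.sum_mul]
  simp only [e]
  rw [Finset.sum_comm, Finset.sum_mul, Finset.sum_mul]
  refine Finset.sum_le_sum fun j _ => ?_
  unfold GG
  rw [Finset.sum_filter, sum_update none j, Finset.mul_sum, Finset.sum_filter, Finset.sum_filter]
  refine Finset.sum_le_sum fun g _ => ?_
  have hw := ww_nonneg hA hs0 g
  have hnn : 0 ≤ (s j * ∑ k : Fin L, 2 ^ k.val * A k) * ww A s g :=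
    mul_nonneg (mul_nonneg (hs0 j) (Finset.sum_nonneg fun k _ => mul_nonneg (by positivity) (hA k))) hw
  by_cases hg0 : g j = none
  · rw [if_pos hg0]
    have e1 : ∀ o, ww A s (Function.update g j o) = alf A o (s j) * ww A s g :=
      fun o => prod_update j (fun j o => alf A o (s j)) g o (by rw [hg0]; rfl)
    simp only [cost_update j g _ hg0, e1, Fintype.sum_option, Function.update_self, cst, alf]
    simp only [Nat.cast_zero, zero_mul, ite_self, zero_add]
    split_ifs with h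
    · rw [Finset.mul_sum, Finset.sum_mul]
      refine Finset.sum_le_sum fun k _ => ?_
      have : 0 ≤ s j * (2 ^ k.val * A k) * ww A s g :=
        mul_nonneg (mul_nonneg (hs0 j) (mul_nonneg (by positivity) (hA k))) hw
      split_ifs
      · push_cast; exact le_of_eq (by ring)
      · exact this
    · exact le_of_eq (Finset.sum_eq_zero fun k _ =>
        if_neg (fun h' => h (le_trans (Nat.le_add_right _ _) h')))
  · rw [if_neg hg0]
    split_ifs
    · exact hnn
    · exact le_rfl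

lemma Ex_uu (hL : 0 < L) (h1 : ∑ a, π a = 1) (f : Fin L → Λ → ℝ) (A : Fin L → ℝ)
    (hA : ∀ k, 0 ≤ A k) (hf0 : ∀ k, ∑ a, π a * f k a = 0)
    (hff : ∀ k k', ∑ a, π a * (f k a * f k' a) = if k = k' then A k else 0)
    (P : Λ → ℝ) (hP : 0 ≤ ∑ a, π a * P a) (s : J → ℝ) (hs0 : ∀ j, 0 ≤ s j)
    (hs : ∀ j, s j * s j = s j)
    (hsmall : ((∑ j, s j) * ∑ a, π a * P a) * ((∑ j, s j) * ∑ k : Fin L, 2 ^ k.val * A k) ≤
      2 ^ L / 2) :
    1 / 2 ≤ Ex (fun _ : J => π) (uu f P s) := by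
  set N := ∑ g ∈ GG J L, ww A s g with hN
  set m := (∑ j, s j) * ∑ k : Fin L, 2 ^ k.val * A k with hm
  have hN1 : 1 ≤ N := by
    have hmem : (fun _ => none : J → Option (Fin L)) ∈ GG J L := by
      simp [GG, cost, cst]
    have := Finset.single_le_sum (f := ww A s) (fun g _ => ww_nonneg hA hs0 g) hmem
    have e : ww A s (fun _ => none) = 1 := by simp [ww, alf]
    rwa [e] at this
  have hF : Ex (fun _ : J => π) (fun x => FF f s x ^ 2) = N := by
    have := Ex_sq h1 f A hf0 hff s hs (GG J L) (fun _ => 1)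
    simpa [FF] using this
  have hR : ∀ j0, Ex (fun _ : J => π) (fun x => RR f j0 s x ^ 2) ≤ m * N / 2 ^ L := by
    intro j0
    unfold RR
    rw [Ex_sq h1 f A hf0 hff s hs, le_div_iff₀ (by positivity)]
    refine le_trans ?_ (markov hA hs0)
    rw [Finset.sum_mul]
    refine le_trans (Finset.sum_le_sum fun g _ => ?_)
      (Finset.sum_le_sum_of_subset_of_nonneg (Finset.filter_subset _ _) fun g _ _ =>
        mul_nonneg (by positivity) (ww_nonneg hA hs0 g))
    have hw := ww_nonneg hA hs0 g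
    by_cases h : cost g ≤ 2 ^ L
    · rw [tau_eq_zero hL g h]
      simpa using mul_nonneg (by positivity) hw
    · have a1 : tau g ^ 2 ≤ 1 := pow_le_one₀ (tau_nonneg g) (tau_le_one g)
      have a2 : (2 : ℝ) ^ L ≤ cost g := by exact_mod_cast (not_le.1 h).le
      calc tau g ^ 2 * ww A s g * 2 ^ L ≤ 1 * ww A s g * cost g := by gcongr
        _ = _ := by ring
  have hPR : ∀ j0, Ex (fun _ : J => π) (fun x => s j0 * P (x j0) * RR f j0 s x ^ 2) ≤
      s j0 * (∑ a, π a * P a) * (m * N / 2 ^ L) := by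
    intro j0
    rw [Ex_indep (fun _ => h1) (fun j => j = j0) (fun x => s j0 * P (x j0))
      (fun x => RR f j0 s x ^ 2), Ex_mul_left, Ex_coord (fun _ => h1)]
    · exact mul_le_mul_of_nonneg_left (hR j0) (mul_nonneg (hs0 j0) hP)
    · intro x y h; simp only [h j0 rfl]
    · intro x y h
      congr 1
      refine Finset.sum_congr rfl fun g hg => ?_
      have hg0 : g j0 = none := (Finset.mem_filter.1 hg).2
      congr 1
      refine Finset.prod_congr rfl fun j _ => ?_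
      by_cases hj : j = j0
      · rw [hj, hg0]; rfl
      · rw [h j hj]
  have : Ex (fun _ : J => π) (uu f P s) =
      N - ∑ j0, Ex (fun _ : J => π) (fun x => s j0 * P (x j0) * RR f j0 s x ^ 2) := by
    rw [← hF, ← Ex_sum, ← Ex_sub]; rfl
  rw [this]
  have h2 := Finset.sum_le_sum fun j0 (_ : j0 ∈ Finset.univ) => hPR j0
  rw [← Finset.sum_mul, ← Finset.sum_mul] at h2
  have h3 : (∑ j, s j) * (∑ a, π a * P a) * (m * N / 2 ^ L) ≤ N / 2 := by
    have : (∑ j, s j) * (∑ a, π a * P a) * (m * N / 2 ^ L) =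
        ((∑ j, s j) * (∑ a, π a * P a) * m) * (N / 2 ^ L) := by ring
    rw [this]
    calc _ ≤ (2 ^ L / 2) * (N / 2 ^ L) := by gcongr
      _ = _ := by field_simp
  linarith

lemma Ex_YY (h1 : ∑ a, π a = 1) (h0 : ∀ a, 0 ≤ π a) {γ : Λ → ℝ} (hγ : ∀ x, 0 ≤ γ x)
    (s : J → ℝ) (hs : ∀ j, s j = 0 ∨ s j = 1) (n : ℕ) :
    Ex (fun _ : J => π) (fun x => YY γ s x ^ n) ≤
      Real.exp ((∑ j, s j) * ∑ a, π a * ((1 + γ a) ^ n - 1)) := by
  unfold YY
  simp only [← Finset.prod_pow]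
  rw [Ex_prod (fun _ : J => π) (fun j a => (1 + s j * γ a) ^ n), Finset.sum_mul, Real.exp_sum]
  refine Finset.prod_le_prod (fun j _ => Finset.sum_nonneg fun a _ => mul_nonneg (h0 a) ?_)
    fun j _ => ?_
  · have := hγ a
    rcases hs j with h | h <;> rw [h] <;> positivity
  · rcases hs j with h | h
    · simp [h, h1]
    · simp only [h, one_mul, mul_sub, Finset.sum_sub_distrib, mul_one, h1]
      have := Real.add_one_le_exp (∑ a, π a * (1 + γ a) ^ n - 1)
      linarith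

end expectation

section norm
variable {Q : ℕ}

lemma card_GG (υ : ℝ) (h3 : 3 ≤ υ) (hJ : (Fintype.card J : ℝ) * L ≤ υ) :
    ((GG J L).card : ℝ) ≤ υ ^ (2 ^ (L + 1) + 1) := by
  have hυ : 0 < υ := by linarith
  have h1 : ((GG J L).card : ℝ) ≤ ∑ g : J → Option (Fin L), υ ^ (2 ^ (L + 1)) *
      ∏ j, (υ⁻¹) ^ cst (g j) := by
    rw [Finset.card_eq_sum_ones, Nat.cast_sum]
    refine le_trans (Finset.sum_le_sum fun g hg => ?_)
      (Finset.sum_le_sum_of_subset_of_nonneg (Finset.subset_univ _) fun g _ _ => by positivity)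
    rw [Finset.prod_pow_eq_pow_sum, inv_pow, ← div_eq_mul_inv, le_div_iff₀ (by positivity)]
    simp only [Nat.cast_one, one_mul]
    exact pow_le_pow_right₀ (by linarith) (Finset.mem_filter.1 hg).2
  rw [← Finset.mul_sum, ← Fintype.piFinset_univ, ← Finset.prod_univ_sum (fun _ => Finset.univ)
    (fun (_ : J) (o : Option (Fin L)) => (υ⁻¹) ^ cst o), Finset.prod_const, Finset.card_univ] at h1
  refine h1.trans ?_
  rw [pow_succ υ]
  gcongr
  have h2 : ∑ o : Option (Fin L), (υ⁻¹) ^ cst o ≤ Real.exp (L / υ) := by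
    refine le_trans ?_ (Real.add_one_le_exp _)
    simp only [Fintype.sum_option, cst, pow_zero]
    have : ∑ k : Fin L, (υ⁻¹) ^ (2 ^ k.val) ≤ ∑ k : Fin L, υ⁻¹ :=
      Finset.sum_le_sum fun k _ => pow_le_of_le_one (by positivity)
        (inv_le_one_of_one_le₀ (by linarith)) (by positivity)
    simp only [Finset.sum_const, Finset.card_univ, Fintype.card_fin, nsmul_eq_mul] at this
    rw [div_eq_mul_inv]
    linarith
  calc _ ≤ Real.exp (L / υ) ^ Fintype.card J := by gcongr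
    _ = Real.exp (Fintype.card J * L / υ) := by rw [← Real.exp_nat_mul, mul_div_assoc]
    _ ≤ Real.exp 1 := by rw [Real.exp_le_exp, div_le_one hυ]; exact hJ
    _ ≤ υ := by linarith [Real.exp_one_lt_d9]

lemma AP_sum_trm (f : Fin L → Λ → ℝ) (s : ℕ → J → ℝ) (x : ℕ → J → Λ) (υ : ℝ) (h3 : 3 ≤ υ)
    (hJ : (Fintype.card J : ℝ) * L ≤ υ)
    (hf : ∀ j (k : Fin L), AP Q (υ ^ (2 ^ k.val)) (fun m => s m j * f k (x m j)))
    (S : Finset (J → Option (Fin L))) (hS : S ⊆ GG J L) (c : (J → Option (Fin L)) → ℝ)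
    (hc : ∀ g, |c g| ≤ 1) :
    AP Q (υ ^ (3 * 2 ^ (L + 1))) (fun m => ∑ g ∈ S, c g * trm f (s m) (x m) g) := by
  have h1 : ∀ g ∈ S, AP Q (υ ^ (2 ^ (L + 1))) (fun m => c g * trm f (s m) (x m) g) := by
    intro g hg
    have := AP.prod (Q := Q) Finset.univ (fun j => υ ^ cst (g j))
      (fun j m => atm f (g j) (s m j) (x m j)) (fun j _ => by
        rcases g j with _ | k
        · simpa [cst, atm] using AP.one
        · exact hf j k)
    refine (this.smul (c g)).mono ?_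
    rw [Finset.prod_pow_eq_pow_sum]
    calc _ ≤ 1 * υ ^ (2 ^ (L + 1)) := by
          gcongr
          · exact hc g
          · linarith
          · exact (Finset.mem_filter.1 (hS hg)).2
      _ = _ := one_mul _
  refine (AP.sum S _ _ h1).mono ?_
  rw [Finset.sum_const, nsmul_eq_mul]
  have h2 : (S.card : ℝ) ≤ υ ^ (2 ^ (L + 1) + 1) :=
    le_trans (by exact_mod_cast Finset.card_le_card hS) (card_GG υ h3 hJ)
  calc _ ≤ υ ^ (2 ^ (L + 1) + 1) * υ ^ (2 ^ (L + 1)) := by gcongr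
    _ = υ ^ (2 ^ (L + 1) + 1 + 2 ^ (L + 1)) := by rw [← pow_add]
    _ ≤ _ := by
      refine pow_le_pow_right₀ (by linarith) ?_
      have : 0 < 2 ^ (L + 1) := by positivity
      omega

lemma AP_uu (hL : 0 < L) (f : Fin L → Λ → ℝ) (P : Λ → ℝ) (s : ℕ → J → ℝ) (x : ℕ → J → Λ) (υ : ℝ)
    (h3 : 3 ≤ υ) (hJ : (Fintype.card J : ℝ) * L ≤ υ)
    (hf : ∀ j (k : Fin L), AP Q (υ ^ (2 ^ k.val)) (fun m => s m j * f k (x m j)))
    (hP : ∀ j, AP Q (υ ^ (2 ^ (L + 1))) (fun m => s m j * P (x m j))) :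
    AP Q (υ ^ (9 * 2 ^ (L + 1))) (fun m => uu f P (s m) (x m)) := by
  have hF := AP_sum_trm f s x υ h3 hJ hf (GG J L) (Finset.Subset.refl _) (fun _ => 1) (by simp)
  have hR := fun j0 => AP_sum_trm f s x υ h3 hJ hf ((GG J L).filter (fun g => g j0 = none))
    (Finset.filter_subset _ _) tau (fun g => by
      rw [abs_of_nonneg (tau_nonneg g)]; exact tau_le_one g)
  have h1 := (hF.mul hF).sub (AP.sum Finset.univ _ _ fun j0 _ => (hP j0).mul ((hR j0).mul (hR j0)))
  refine (h1.mono ?_).congr fun m => by simp [uu, FF, RR, sq]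
  rw [Finset.sum_const, nsmul_eq_mul, Finset.card_univ]
  have hJ' : (Fintype.card J : ℝ) ≤ υ := by
    have : (1 : ℝ) ≤ L := by exact_mod_cast hL
    have h0 : (0 : ℝ) ≤ Fintype.card J := by positivity
    nlinarith
  have hB : 2 ≤ 2 ^ (L + 1) := by
    calc 2 = 2 ^ 1 := by norm_num
      _ ≤ _ := Nat.pow_le_pow_right (by norm_num) (by omega)
  set B := 2 ^ (L + 1)
  have h1υ : 1 ≤ υ := by linarith
  have a1 : υ ^ (3 * B) * υ ^ (3 * B) ≤ υ ^ (7 * B + 1) := by
    rw [← pow_add]; exact pow_le_pow_right₀ h1υ (by omega)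
  have a2 : (Fintype.card J : ℝ) * (υ ^ B * (υ ^ (3 * B) * υ ^ (3 * B))) ≤ υ ^ (7 * B + 1) := by
    calc _ ≤ υ * (υ ^ B * (υ ^ (3 * B) * υ ^ (3 * B))) := by gcongr
      _ = _ := by rw [← pow_add, ← pow_add, ← pow_succ']; congr 1; ring
  have a3 : υ * υ ^ (7 * B + 1) ≤ υ ^ (9 * B) := by
    rw [← pow_succ']; exact pow_le_pow_right₀ h1υ (by omega)
  have a4 : 0 ≤ υ ^ (7 * B + 1) := by positivity
  nlinarith

end norm

end Crest.Agent.H1Gap
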